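import Vale.Agent.P263.TOP.Lit
import Vale.Agent.P263.TOP.Span
import Vale.Agent.P263.TJ.JoinBox
import Vale.Agent.P263.TJ.SphCc
import Vale.Agent.P263.T0.Based
import Vale.Agent.P263.G2.BoxBar
import Vale.Agent.P263.G2.SingIso

/-!
# P263, GLUE: the literal comparison map and the finite stage

* `BoxMap N ρ b` : the map `b : FN N Unit → Sing Q₀S⁰` is `boxes # ρ` at every stage.
* `G2MapStmt` : for every range `D` there are `N = 2 ^ k`, `ρ` and `b` with `BoxMap N ρ b` such that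
  `b` is an isomorphism in cohomology up to `D`.  `G2MapStmt.g2Stmt : G2Stmt`.
* `exists_stage` : for a map `g : Sᵈ → Q₀S⁰` the functional `G.phi` of `Geo` is the evaluation on a
  chain of boxes of stage `r + 1` whose image under `boxes # R` in `Sing Ω^{r+1} S^{r+1}` is
  homologous to the image of the fundamental cycle under a representative `A : Sᵈ → Ω^{r+1} S^{r+1}`,
  for all large `r`.
-/

noncomputable section

open CategoryTheory OnePoint Topology

namespace Vale.Agent.P263.TOP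

open Vale.Agent.P263.S Vale.Agent.P263.E Vale.Agent.P263.TI Vale.Agent.P263.TOP.H
open Vale.Agent.P263.G2

/-- the inclusion `Q₀S⁰ ⊆ QS⁰` -/
def q0in : C(T0.Q0S0, T0.QS0) := ⟨Subtype.val, continuous_subtype_val⟩

/-- the map `Ωʳ Sʳ → QS⁰` -/
def toQC (r : ℕ) : C(T0.Om r, T0.QS0) := (T0.toQ r).hom

theorem toQC_apply (r : ℕ) (x : T0.Om r) : toQC r x = T0.toQ r x := rfl

theorem toQC_injective (r : ℕ) : Function.Injective (toQC r) := T0.toQ_injective r

/-- the iterated stabilization -/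
def omMap {r s : ℕ} (h : r ≤ s) : C(T0.Om r, T0.Om s) := (T0.omSeq.map (homOfLE h)).hom

theorem toQC_omMap {r s : ℕ} (h : r ≤ s) (x : T0.Om r) : toQC s (omMap h x) = toQC r x :=
  T0.toQ_map h x

theorem omMap_const {r s : ℕ} (h : r ≤ s) : omMap h (T0.Om.const r) = T0.Om.const s :=
  T0.map_const h

/-- the inclusion of the families of stage `r` -/
def stIn (r N : ℕ) : SS.Map (FNr r N Unit) (FN N Unit) := ⟨fun S => ⟨S.1, S.2.2⟩, fun _ _ => rfl⟩

theorem stIn_inj (r N : ℕ) : (stIn r N).Inj := fun _ S S' h => by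
  have h1 : S.1 = S'.1 := congrArg (fun x : {S : Conf Unit (Dl _) // S.pts.card = N} => x.1) h
  exact Subtype.ext h1

/-- the map `b` is `boxes # ρ` -/
def BoxMap (N : ℕ) (ρ : T0.QS0) (b : SS.Map (FN N Unit) (sing T0.Q0S0)) : Prop :=
  ∀ (r : ℕ) (R : T0.Om (r + 1)), toQC (r + 1) R = ρ →
    ((singMap q0in).comp b).comp (stIn (r + 1) N) =
      (singMap (toQC (r + 1))).comp (TJ.gBR r N GB.half R)

/-- Output of the block `[G2]`: the literal comparison map. -/
def G2MapStmt : Prop := ∀ D : ℕ, ∃ k : ℕ, 2 ≤ k ∧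
  ∃ (ρ : T0.QS0) (b : SS.Map (FN (2 ^ k) Unit) (sing T0.Q0S0)),
    BoxMap (2 ^ k) ρ b ∧ G.IsoUpTo (ZMod 2) D b

theorem bijective_mapH_of_inverse {X Y : SS} {f : SS.Map X Y} {g : SS.Map Y X}
    (h1 : f.comp g = SS.Map.id Y) (h2 : g.comp f = SS.Map.id X) (n : ℕ) :
    Function.Bijective ((f.pull (R := ZMod 2)).mapH n) := by
  have e1 : ∀ x, (g.pull (R := ZMod 2)).mapH n ((f.pull (R := ZMod 2)).mapH n x) = x := by
    intro x
    rw [← Hom.mapH_comp, ← SS.Map.pull_comp, h1, SS.Map.pull_id, Hom.mapH_id]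
  have e2 : ∀ x, (f.pull (R := ZMod 2)).mapH n ((g.pull (R := ZMod 2)).mapH n x) = x := by
    intro x
    rw [← Hom.mapH_comp, ← SS.Map.pull_comp, h2, SS.Map.pull_id, Hom.mapH_id]
  exact ⟨fun x y h => by rw [← e1 x, h, e1], fun x => ⟨_, e2 x⟩⟩

theorem bijective_toSing (X : Type) [TopologicalSpace X] (n : ℕ) :
    Function.Bijective (((toSing X).pull (R := ZMod 2)).mapH n) :=
  bijective_mapH_of_inverse (toSing_ofSing X) (ofSing_toSing X) n

theorem G2MapStmt.g2Stmt (h : G2MapStmt) : G2Stmt := by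
  intro D
  obtain ⟨k, hk, ρ, b, -, hb⟩ := h D
  refine ⟨k, hk, (conn_box (ZMod 2) (2 ^ k) D).symm.trans ((G.Conn.of_map b hb).trans
    (G.Conn.of_map (toSing T0.Q0S0) ?_))⟩
  exact ⟨fun n _ => (bijective_toSing _ n).1, fun n _ => (bijective_toSing _ n).2⟩

/-- the fundamental cycle of the sphere -/
def sphCyc (d : ℕ) : Chn (ZMod 2) (sing (T0.Sph d)) d :=
  Finsupp.single (TJ.SphCc.sg d) 1 + Finsupp.single (TJ.SphCc.ct d d) 1

theorem ev_sphCyc {d : ℕ} (z : (SS.F (ZMod 2) (sing (T0.Sph d))).obj d) :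
    ev z (sphCyc d) = z (TJ.SphCc.sg d) + z (TJ.SphCc.ct d d) := by
  rw [sphCyc, map_add, ev_single, ev_single, one_mul, one_mul]

theorem toSing_sg (d : ℕ) : (toSing (T0.Sph d)).app (TJ.SphCc.sg d) = T0.SphH.sigS d := rfl

theorem toSing_ct (d n : ℕ) : (toSing (T0.Sph d)).app (TJ.SphCc.ct d n) = T0.SphH.cstS d n := rfl

theorem fundS_cls {d : ℕ} (hd : 0 < d) (z : (SS.F (ZMod 2) (singS d)).Z d) :
    fundS hd ((SS.F (ZMod 2) (singS d)).cls d z) =
      ev z.1 (push (ZMod 2) (toSing (T0.Sph d)) d (sphCyc d)) := by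
  rw [sphCyc, map_add, push_single, push_single, map_add, ev_single, ev_single, one_mul, one_mul]
  rfl

theorem isCyc_sphCyc {d : ℕ} (hd : 0 < d) : IsCyc d (sphCyc d) := by
  obtain ⟨k, rfl⟩ : ∃ k, d = k + 1 := ⟨d - 1, by omega⟩
  rw [isCyc_succ]
  refine ev_ext fun c => ?_
  rw [ev_cb, map_zero]
  have h1 := (mem_Bd_iff_evS (d := k + 1) hd
    ⟨(SS.F (ZMod 2) (singS (k + 1))).d k (((ofSing (T0.Sph (k + 1))).pull (R := ZMod 2)).app k c),
      CosMod.d_d _ _ _⟩).1 (CosMod.mem_Bd_succ.2 ⟨_, rfl⟩)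
  rw [ev_sphCyc]
  have h2 : (SS.F (ZMod 2) (singS (k + 1))).d k (((ofSing (T0.Sph (k + 1))).pull (R := ZMod 2)).app k c)
      = ((ofSing (T0.Sph (k + 1))).pull (R := ZMod 2)).app (k + 1)
        ((SS.F (ZMod 2) (sing (T0.Sph (k + 1)))).d k c) := (Hom.app_d _ _ _).symm
  have h3 : evS (k + 1) (((ofSing (T0.Sph (k + 1))).pull (R := ZMod 2)).app (k + 1)
        ((SS.F (ZMod 2) (sing (T0.Sph (k + 1)))).d k c)) = 0 := by
    rw [← h2]
    exact h1
  exact h3

/-- the stages of a chain of `QS⁰` -/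
theorem exists_om_chain {p : ℕ} (z : Chn (ZMod 2) (sing T0.QS0) p) :
    ∃ r0 : ℕ, ∀ r, r0 ≤ r → ∃ z' : Chn (ZMod 2) (sing (T0.Om r)) p,
      push (ZMod 2) (singMap (toQC r)) p z' = z := by
  induction z using Finsupp.induction_linear with
  | zero => exact ⟨0, fun r _ => ⟨0, map_zero _⟩⟩
  | add z w hz hw =>
    obtain ⟨a, ha⟩ := hz
    obtain ⟨b, hb⟩ := hw
    refine ⟨max a b, fun r hr => ?_⟩
    obtain ⟨z', rfl⟩ := ha r (le_trans (le_max_left _ _) hr)
    obtain ⟨w', rfl⟩ := hb r (le_trans (le_max_right _ _) hr)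
    exact ⟨z' + w', map_add _ _ _⟩
  | single σ a =>
    obtain ⟨r, f, hf⟩ := T0.exists_factor (toC σ)
    refine ⟨r, fun s hs => ⟨Finsupp.single
      (ofC ((omMap hs).comp f)) a, ?_⟩⟩
    rw [push_single]
    congr 1
    apply ContinuousMap.ext
    intro t
    exact (toQC_omMap hs (f t)).trans (hf t)

/-- the stages of a chain of families of boxes -/
theorem exists_st_chain {N p : ℕ} (z : Chn (ZMod 2) (FN N Unit) p) :
    ∃ r0 : ℕ, ∀ r, r0 ≤ r → ∃ z' : Chn (ZMod 2) (FNr r N Unit) p,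
      push (ZMod 2) (stIn r N) p z' = z := by
  induction z using Finsupp.induction_linear with
  | zero => exact ⟨0, fun r _ => ⟨0, map_zero _⟩⟩
  | add z w hz hw =>
    obtain ⟨a, ha⟩ := hz
    obtain ⟨b, hb⟩ := hw
    refine ⟨max a b, fun r hr => ?_⟩
    obtain ⟨z', rfl⟩ := ha r (le_trans (le_max_left _ _) hr)
    obtain ⟨w', rfl⟩ := hb r (le_trans (le_max_right _ _) hr)
    exact ⟨z' + w', map_add _ _ _⟩
  | single S a =>
    obtain ⟨r, hr⟩ := S.1.exists_isSt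
    refine ⟨r, fun s hs => ⟨Finsupp.single
      (show (FNr s N Unit).obj p from ⟨S.1, hr.mono hs, S.2⟩) a, ?_⟩⟩
    exact push_single (k := ZMod 2) (stIn s N) _ a

/-- **The data at a finite stage.** -/
structure Stage {d N : ℕ} (G : Geo d N) (e : SS.Map (FN N Unit) (Gam N))
    (g : C(T0.Sph d, T0.Q0S0)) (r : ℕ) where
  /-- the representative of `g` -/
  A : C(T0.Sph d, T0.Om (r + 1))
  hA : ∀ x, toQC (r + 1) (A x) = (g x).1
  /-- the loop of degree `-N` -/
  R : T0.Om (r + 1)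
  /-- the cycle of families of boxes -/
  ξ : Chn (ZMod 2) (FNr (r + 1) N Unit) d
  cyc : IsCyc d ξ
  bd : IsBd (push (ZMod 2) (singMap A) d (sphCyc d) -
    push (ZMod 2) (TJ.gBR r N GB.half R) d ξ)
  /-- a family of boxes -/
  v : (FNr (r + 1) N Unit).obj 0
  joined : Joined (GB.plus GB.half R (alphaOm (r + 1) v.1 v.2.1 TJ.pt0)) (T0.Om.const (r + 1))
  phi : ∀ x : (SS.F (ZMod 2) (Gam N)).Z d,
    G.phi ((SS.F (ZMod 2) (Gam N)).cls d x) =
      ev (((e.comp (stIn (r + 1) N)).pull (R := ZMod 2)).app d x.1) ξ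

namespace Stage

variable {d N : ℕ} {G : Geo d N} {e : SS.Map (FN N Unit) (Gam N)} {g : C(T0.Sph d, T0.Q0S0)}
  {r : ℕ}

theorem A_infty (X : Stage G e g r) (hg : g ∞ = T0.base0) : X.A ∞ = T0.Om.const (r + 1) := by
  apply toQC_injective (r + 1)
  rw [X.hA, hg, toQC_apply, T0.toQ_const]
  rfl

end Stage

/-- a vertex of the families of boxes -/
theorem nonempty_box (N : ℕ) : Nonempty ((FN N Unit).obj 0) :=
  ⟨(FN.ofOrd N fun _ => ()).app ((OFr.toOF 1 (Fin N)).app (baseV 0 N))⟩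

theorem push_ofSing_toSing {X Y : Type} [TopologicalSpace X] [TopologicalSpace Y] (g : C(X, Y))
    {p : ℕ} (z : Chn (ZMod 2) (sing X) p) :
    push (ZMod 2) ((singMap g).comp (ofSing X)) p (push (ZMod 2) (toSing X) p z) =
      push (ZMod 2) (singMap g) p z := by
  have h : ((singMap g).comp (ofSing X)).comp (toSing X) = singMap g :=
    SS.Map.ext fun p x => congrArg (singMap g).app ((singEquiv X p).symm_apply_apply x)
  rw [← push_comp, h]

theorem map_zero_iff {d : ℕ} (g : C(T0.Sph d, T0.Q0S0)) :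
    (∀ y : Co (sing T0.Q0S0) d, ((singMap g).comp (ofSing (T0.Sph d))).pull.mapH d y = 0) ↔
      (T0.H d).map (TopCat.ofHom g) = 0 := by
  rw [Vale.Agent.P263.G.H_map_eq_zero_iff_mapH]
  have hb : Function.Bijective (((ofSing T0.Q0S0).pull (R := ZMod 2)).mapH d) :=
    bijective_mapH_of_inverse (ofSing_toSing T0.Q0S0) (toSing_ofSing T0.Q0S0) d
  have e : (ofSing T0.Q0S0).comp (Vale.Agent.P263.G.singMap (TopCat.ofHom g)) =
      (singMap g).comp (ofSing (T0.Sph d)) := rfl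
  constructor
  · intro h
    refine LinearMap.ext fun z => ?_
    obtain ⟨y, rfl⟩ := hb.2 z
    rw [← Hom.mapH_comp, ← SS.Map.pull_comp, e]
    exact h y
  · intro h y
    rw [← e, SS.Map.pull_comp, Hom.mapH_comp, h]
    rfl

/-- an element of `Ωʳ Sʳ` in the base component of `QS⁰` is joined to the constant at all later
stages -/
theorem joined_of_mem {r : ℕ} {x : T0.Om r} (hx : toQC r x ∈ pathComponent T0.base) :
    ∃ r0 : ℕ, ∀ s, r0 ≤ s → ∀ y : T0.Om s, toQC s y = toQC r x → Joined y (T0.Om.const s) := by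
  obtain ⟨s0, h, hs⟩ := T0.exists_joined hx
  refine ⟨s0, fun s hs0 y hy => ?_⟩
  have h1 : Joined (omMap hs0 (T0.Om.const s0)) (omMap hs0 (omMap h x)) := by
    obtain ⟨γ⟩ : Joined (T0.Om.const s0) (omMap h x) := hs
    exact ⟨γ.map (omMap hs0).continuous⟩
  rw [omMap_const] at h1
  have h2 : omMap hs0 (omMap h x) = y := by
    apply toQC_injective s
    rw [toQC_omMap, toQC_omMap, hy]
  rw [h2] at h1
  exact h1.symm

/-- **The finite stage.** -/
theorem exists_stage {d N D : ℕ} (hd : 0 < d) (hN : 3 ≤ N) (hD : d + 2 < D) {ρ : T0.QS0}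
    {b : SS.Map (FN N Unit) (sing T0.Q0S0)} (hbm : BoxMap N ρ b)
    (hb : G.IsoUpTo (ZMod 2) D b) (e : SS.Map (FN N Unit) (Gam N))
    (he : G.IsoUpTo (ZMod 2) D e) (g : C(T0.Sph d, T0.Q0S0)) :
    ∃ G : Geo d N, (G.phi = 0 ↔ (T0.H d).map (TopCat.ofHom g) = 0) ∧
      ∃ r0 : ℕ, ∀ r, r0 ≤ r → Nonempty (Stage G e g r) := by
  obtain ⟨G, h0, ξ, hξ, ⟨η, hη⟩, hphi⟩ := exists_geo_span hN hD e he b hb (sphLike_singS hd)
    (fundS hd) (push (ZMod 2) (toSing (T0.Sph d)) d (sphCyc d)) ((isCyc_sphCyc hd).push _)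
    (fundS_cls hd) ((singMap g).comp (ofSing (T0.Sph d)))
  refine ⟨G, h0.trans (map_zero_iff g), ?_⟩
  -- the stages
  obtain ⟨r1, A0, hA0⟩ : ∃ (r1 : ℕ) (A0 : C(T0.Sph d, T0.Om r1)), ∀ x, toQC r1 (A0 x) = (g x).1 :=
    T0.exists_factor (q0in.comp g)
  obtain ⟨r2, h2⟩ := exists_st_chain ξ
  obtain ⟨r3, R0, hR0⟩ : ∃ (r3 : ℕ) (R0 : T0.Om r3), toQC r3 R0 = ρ := T0.toQ_surj ρ
  obtain ⟨r4, h4⟩ := exists_om_chain (push (ZMod 2) (singMap q0in) (d + 1) η)
  obtain ⟨S0⟩ := nonempty_box N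
  obtain ⟨r5, hr5⟩ := S0.1.exists_isSt
  -- the component of one family of boxes
  have key : ∀ (r : ℕ) (R : T0.Om (r + 1)), toQC (r + 1) R = ρ → ∀ (h : Conf.IsSt (r + 1) S0.1),
      toQC (r + 1) (GB.plus GB.half R (alphaOm (r + 1) S0.1 h TJ.pt0)) =
        (toC (b.app S0) TJ.pt0).1 := by
    intro r R hR h
    have h6 := congrArg (fun f : SS.Map (FNr (r + 1) N Unit) (sing T0.QS0) =>
      toC (f.app (show (FNr (r + 1) N Unit).obj 0 from ⟨S0.1, h, S0.2⟩)) TJ.pt0) (hbm r R hR)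
    exact h6.symm
  obtain ⟨r6, h6⟩ : ∃ r6 : ℕ, ∀ s, r6 ≤ s → ∀ y : T0.Om s,
      toQC s y = (toC (b.app S0) TJ.pt0).1 → Joined y (T0.Om.const s) := by
    have hR : toQC (max r3 r5 + 1) (omMap (show r3 ≤ max r3 r5 + 1 by omega) R0) = ρ :=
      (toQC_omMap _ R0).trans hR0
    have h7 := key (max r3 r5) _ hR (hr5.mono (by omega))
    obtain ⟨r6, h6⟩ := joined_of_mem (x := GB.plus GB.half
      (omMap (show r3 ≤ max r3 r5 + 1 by omega) R0)
      (alphaOm (max r3 r5 + 1) S0.1 (hr5.mono (by omega)) TJ.pt0)) (by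
        rw [h7]
        exact (toC (b.app S0) TJ.pt0).2)
    exact ⟨r6, fun s hs y hy => h6 s hs y (hy.trans h7.symm)⟩
  refine ⟨max (max (max r1 r2) (max r3 r4)) (max r5 r6), fun r hr => ?_⟩
  have hR : toQC (r + 1) (omMap (show r3 ≤ r + 1 by omega) R0) = ρ :=
    (toQC_omMap _ R0).trans hR0
  obtain ⟨ξ', hξ'⟩ := h2 (r + 1) (by omega)
  obtain ⟨η', hη'⟩ := h4 (r + 1) (by omega)
  have hA : ∀ x, toQC (r + 1) (((omMap (show r1 ≤ r + 1 by omega)).comp A0) x) = (g x).1 :=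
    fun x => (toQC_omMap _ (A0 x)).trans (hA0 x)
  refine ⟨{
    A := (omMap (show r1 ≤ r + 1 by omega)).comp A0
    hA := hA
    R := omMap (show r3 ≤ r + 1 by omega) R0
    ξ := ξ'
    cyc := ?_
    bd := ?_
    v := ⟨S0.1, hr5.mono (by omega), S0.2⟩
    joined := ?_
    phi := ?_ }⟩
  · refine IsCyc.of_push (stIn_inj (r + 1) N) ?_
    rw [hξ']
    exact hξ
  · refine ⟨η', push_injective (k := ZMod 2) (f := singMap (toQC (r + 1)))
      (singMap_inj (toQC_injective (r + 1))) d ?_⟩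
    rw [← push_cb, hη', push_cb, hη, push_ofSing_toSing, map_sub, map_sub, ← hξ', ← push_comp,
      ← push_comp, ← push_comp, ← push_comp, ← push_comp]
    congr 1
    · congr 2
      rw [← singMap_comp, ← singMap_comp]
      congr 1
      exact ContinuousMap.ext fun x => (hA x).symm
    · congr 2
      exact hbm r _ hR
  · exact h6 (r + 1) (by omega) _ (key r _ hR (hr5.mono (by omega)))
  · intro x
    rw [hphi, ← hξ', ev_push]
    rfl

end Vale.Agent.P263.TOP
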