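import Vale.Agent.P263.TOP.LitL1
import Vale.Agent.P263.TJ.MuInj
import Vale.Agent.P263.AD.Rep

/-!
# P263: a based map `Sᵈ → Q₀S⁰` of Hopf invariant one has a non-zero Hurewicz image

* `TJ.not_hopfOne_of_bd` : if the cycle `A_*[Sᵈ]` of `Ωʳ Sʳ` bounds then the adjoint of `A` does not
  have Hopf invariant one.
* `hur_ne_of_hopfOne` : if `g : Sᵈ → Q₀S⁰` has Hopf invariant one then `h_d(g) ≠ 0`.
-/

noncomputable section

open CategoryTheory OnePoint Topology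

namespace Vale.Agent.P263.TJ

open Vale.Agent.P263.S Vale.Agent.P263.E Vale.Agent.P263.H83 Vale.Agent.P263.G2
  Vale.Agent.P263.T0

/-- **If the fundamental cycle bounds then the Hopf invariant is not one.** -/
theorem not_hopfOne_of_bd {d r i : ℕ} (hd : 0 < d) (hr : i + d + 1 = r) {A : C(Sph d, Om r)}
    (hA : A ∞ = Om.const r) (hb : IsBd (push (ZMod 2) (singMap A) d (fcyc d))) :
    ¬ HopfOne (adjS A hA) := by
  obtain ⟨D, -, -, hD⟩ := exists_BC (d := d) (r := r) (i := i) hr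
  obtain ⟨u, hu⟩ : ∃ u, u = par (intg r) D (SS.Map.id (G2.sing (Om r))) := ⟨_, rfl⟩
  have hdu : Cc.d u = 0 := by rw [hu]; exact d_par _ _ _
  have hdeg : Cc.IsDeg 0 u := by rw [hu]; exact isDeg_par _ _ _
  have hpar : ∀ {Y : SS} (g : SS.Map Y (G2.sing (Om r))),
      par (intg r) D g = Cc.pull g u := by
    intro Y g
    rw [hu, ← par_comp]
    rfl
  have hA0 : Cc.pull (singMap A) u = 0 := by rw [← hpar]; exact par_sph _ _ hd hA
  obtain ⟨W, hW⟩ : ∃ W, IsW (intg r) D (zCl hdu).inc W :=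
    isW_iff_par.2 (by rw [hpar]; exact zCl_inc hdu hdeg)
  obtain ⟨W', hW', hWdeg, hWd⟩ := hW.exists_deg
  have h2 : IsW (intg r) D (singMap A) (Cc.pull (zMap hdu (singMap A) hA0) W') :=
    hW'.pull (zMap hdu (singMap A) hA0)
  obtain ⟨η, hη⟩ := hb
  have h3 : cb (ZMod 2) _ d ((zCl hdu).pr (ZMod 2) (d + 1) η) =
      push (ZMod 2) (zMap hdu (singMap A) hA0) d (fcyc d) := by
    rw [GB.Cl.cb_pr, hη]
    have e2 : push (ZMod 2) (singMap A) d (fcyc d) = push (ZMod 2) (zCl hdu).inc d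
        (push (ZMod 2) (zMap hdu (singMap A) hA0) d (fcyc d)) := by
      rw [← push_comp]
      rfl
    rw [e2, GB.Cl.pr_inc]
  have h4 : evc W' (push (ZMod 2) (zMap hdu (singMap A) hA0) d (fcyc d)) = 0 := by
    have h5 : evc (Cc.d W') ((zCl hdu).pr (ZMod 2) (d + 1) η) = 0 := by rw [hWd, evc_zero]
    rwa [evc_d, h3] at h5
  rw [← evc_pull, evc_fcyc] at h4
  have h6 := (SphCc.coh_iff hd (hWdeg.pull (zMap hdu (singMap A) hA0)) (by
    rw [← pull_d, hWd]; rfl)).2 h4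
  obtain ⟨a, ha⟩ := exists_of_coh h6
  intro h
  exact (IsW.hopfOne_iff hd hD A hA h2).1 h a ha

end Vale.Agent.P263.TJ

namespace Vale.Agent.P263.TOP

open Vale.Agent.P263.S Vale.Agent.P263.E Vale.Agent.P263.TI Vale.Agent.P263.TOP.H
open Vale.Agent.P263.G2 Vale.Agent.P263.LZ Vale.Agent.P263.EX Vale.Agent.P263.EX.GE

/-- a chain which is killed by all cocycles is a boundary -/
theorem isBd_of_ev {k : Type} [Field k] {X : SS} {p : ℕ} {z : Chn k X p}
    (h : ∀ c ∈ (SS.F k X).Z p, ev c z = 0) : IsBd z := by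
  by_contra hcon
  obtain ⟨l, hl, hlz⟩ := exists_separating (bds k X p) (v := z) hcon
  have hc : ofLin l ∈ (SS.F k X).Z p := by
    rw [mem_Z_iff]
    intro w
    rw [ev_ofLin]
    exact hl _ ⟨w, rfl⟩
  have h1 := h _ hc
  rw [ev_ofLin] at h1
  exact hlz h1

/-- if `h_d(g) = 0` then the cycle `g_*[Sᵈ]` bounds -/
theorem isBd_of_map_zero {d : ℕ} (hd : 0 < d) (g : C(T0.Sph d, T0.Q0S0))
    (h : (T0.H d).map (TopCat.ofHom g) = 0) :
    IsBd (push (ZMod 2) (singMap g) d (sphCyc d)) := by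
  refine isBd_of_ev fun c hc => ?_
  have h1 := (map_zero_iff g).2 h ((SS.F (ZMod 2) (sing T0.Q0S0)).cls d ⟨c, hc⟩)
  have h2 := congrArg (fundS hd) h1
  rw [map_zero] at h2
  have h3 : fundS hd (((singMap g).comp (ofSing (T0.Sph d))).pull.mapH d
      ((SS.F (ZMod 2) (sing T0.Q0S0)).cls d ⟨c, hc⟩)) =
      ev ((((singMap g).comp (ofSing (T0.Sph d))).pull (R := ZMod 2)).app d c)
        (push (ZMod 2) (toSing (T0.Sph d)) d (sphCyc d)) := by
    rw [Hom.mapH_cls]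
    exact fundS_cls hd _
  rw [h3, ← ev_push, push_ofSing_toSing] at h2
  exact h2

/-- if `h_d(g) = 0` then the cycle `A_*[Sᵈ]` bounds for the representatives at large stages -/
theorem exists_rep_isBd {d : ℕ} (hd : 0 < d) (g : T0.BMap d) (h : T0.hur hd g = 0) (N : ℕ) :
    ∃ (r : ℕ) (A : C(T0.Sph d, T0.Om r)), N ≤ r ∧ K.Rep g r A ∧
      IsBd (push (ZMod 2) (singMap A) d (TJ.fcyc d)) := by
  obtain ⟨η, hη⟩ := isBd_of_map_zero hd g.1.hom ((T0.hur_eq_zero_iff hd g).1 h)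
  obtain ⟨r1, A0, hA0⟩ : ∃ (r1 : ℕ) (A0 : C(T0.Sph d, T0.Om r1)),
      ∀ x, toQC r1 (A0 x) = (g.1.hom x).1 := T0.exists_factor (q0in.comp g.1.hom)
  obtain ⟨r4, h4⟩ := exists_om_chain (push (ZMod 2) (singMap q0in) (d + 1) η)
  obtain ⟨r, hr1, hr4, hrN⟩ : ∃ r, r1 ≤ r ∧ r4 ≤ r ∧ N ≤ r :=
    ⟨max (max r1 r4) N, by omega, by omega, by omega⟩
  obtain ⟨η', hη'⟩ := h4 r hr4
  have hA : ∀ x, toQC r (((omMap hr1).comp A0) x) = (g.1.hom x).1 :=
    fun x => (toQC_omMap _ (A0 x)).trans (hA0 x)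
  refine ⟨r, (omMap hr1).comp A0, hrN, ⟨?_, hA⟩, η', ?_⟩
  · apply toQC_injective r
    rw [hA, toQC_apply, T0.toQ_const]
    exact congrArg Subtype.val g.2
  · apply push_injective (k := ZMod 2) (f := singMap (toQC r)) (singMap_inj (toQC_injective r)) d
    rw [← push_cb, hη', push_cb, hη, ← push_comp, ← push_comp, ← singMap_comp, ← singMap_comp]
    have h5 : q0in.comp g.1.hom = (toQC r).comp ((omMap hr1).comp A0) :=
      ContinuousMap.ext fun x => (hA x).symm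
    rw [h5]
    rfl

/-- **A based map of Hopf invariant one has a non-zero Hurewicz image.** -/
theorem hur_ne_of_hopfOne {d : ℕ} (hd : 0 < d) {g : T0.BMap d} (h : K.HopfOne g) :
    T0.hur hd g ≠ 0 := by
  intro h0
  obtain ⟨r, A, hr, hA, hb⟩ := exists_rep_isBd hd g h0 (d + 1)
  exact TJ.not_hopfOne_of_bd (i := r - (d + 1)) hd (by omega) hA.base hb
    ((AD.Su.hopfOne_iff_rep hd hr hA).1 h)

end Vale.Agent.P263.TOP
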