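import Vale.Agent.P263.TOP.LitMap
import Vale.Agent.P263.TOP.LevelBLead
import Vale.Agent.P263.TJ.L1Asm
import Vale.Agent.P263.K.Stmt

/-!
# P263, GLUE: the literal theorem in the stems `2^s - 1`

* `CmpOne M e` (output of CMP): the class `tr_1 (v ^ d)` of `Gam N`, pulled back to the families of
  boxes by `e`, is the class of the box value `tln boxLab N d` of the chain of loops.
* `Stage.hopfOne` : if the leading functional has length one then the adjoint of the representative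
  has Hopf invariant one.
* `Stage.value_one`, `Stage.value_two` : the values of the classes `tr_1 y` and `tr_2 P(v ^ c)` on the
  chain of boxes, if the leading functional has length two.
* `stage_cases` : the two cases for a map `g : Sᵈ → Q₀S⁰` with `h_d(g) ≠ 0`.
* `mainFor_of_stage` : the theorem, from the box value in length two.
-/

noncomputable section

open CategoryTheory OnePoint Topology

namespace Vale.Agent.P263.TOP

open Vale.Agent.P263.S Vale.Agent.P263.E Vale.Agent.P263.TI Vale.Agent.P263.TOP.H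
open Vale.Agent.P263.G2 Vale.Agent.P263.LZ Vale.Agent.P263.EX Vale.Agent.P263.EX.GE

/-- the class `v ^ d` and the box value of the chains of loops, for the map `e` -/
def CmpOne (M : TowerModel) {N : ℕ} (e : SS.Map (FN N Unit) (Gam N)) : Prop :=
  ∀ d : ℕ, 0 < d → ∃ (w : M.T.H 1 d) (x : (SS.F (ZMod 2) (Gam N)).Z d),
    M.T.r 1 d w = io 1 (q 1 0 ^ d) ∧
    (SS.F (ZMod 2) (Gam N)).cls d x = (ctree (ZMod 2) 1 N).mapH d (M.e 1 d w) ∧
    ∀ (r : ℕ) (ξ : Chn (ZMod 2) (FNr (r + 1) N Unit) d), IsCyc d ξ →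
      ev (((e.comp (stIn (r + 1) N)).pull (R := ZMod 2)).app d x.1) ξ =
        TJ.evc (TJ.Cc.pull (TJ.lbB (r + 1) N) (TJ.tln TJ.boxLab N d)) ξ

theorem isBd_neg {X : SS} {p : ℕ} {z : Chn (ZMod 2) X p} (h : IsBd z) : IsBd (-z) := by
  obtain ⟨w, hw⟩ := h
  exact ⟨-w, by rw [map_neg, hw]⟩

namespace Stage

variable {d k : ℕ} {G : Geo d (2 ^ k)} {e : SS.Map (FN (2 ^ k) Unit) (Gam (2 ^ k))}
  {g : C(T0.Sph d, T0.Q0S0)} {r : ℕ}

theorem bd' (X : Stage G e g r) :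
    IsBd (push (ZMod 2) (TJ.gBR r (2 ^ k) GB.half X.R) d X.ξ -
      push (ZMod 2) (singMap X.A) d (TJ.fcyc d)) := by
  have h := isBd_neg X.bd
  rw [neg_sub] at h
  exact h

/-- **Hopf invariant one**, if the leading functional has length one. -/
theorem hopfOne {M : TowerModel} (K : Contract M) (X : Stage G e g r) (hc : CmpOne M e)
    (hg : g ∞ = T0.base0) (hk : 0 < k) (hr : d ≤ r) (h1 : hfun G.phi 1 ≠ 0) :
    TJ.HopfOne (TJ.adjS X.A (X.A_infty hg)) := by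
  obtain ⟨w, x, hw, hx, hv⟩ := hc d G.dpos
  have hlead := (K.lead_one G h1).2 w hw
  have h2 : G.phi ((SS.F (ZMod 2) (Gam (2 ^ k))).cls d x) = 1 := by
    rw [hx]
    exact hlead
  rw [X.phi x, hv r X.ξ X.cyc] at h2
  have hne : TJ.evc (TJ.Cc.pull (TJ.lbB (r + 1) (2 ^ k)) (TJ.tln TJ.boxLab (2 ^ k) d)) X.ξ ≠ 0 := by
    rw [h2]
    exact one_ne_zero
  obtain ⟨i, hi⟩ := Nat.exists_eq_add_of_le' hr
  have hev : Even (2 ^ k) := (Nat.even_pow' (by omega)).2 even_two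
  exact TJ.hopfOne_of_box_chain G.dpos hi.symm hev GB.half X.R X.v X.joined (X.A_infty hg) X.cyc
    X.bd' hne

/-- the classes which come from one double covering vanish on the chain of boxes -/
theorem value_one (X : Stage G e g r) (h1 : hfun G.phi 1 = 0) (y : Co (SS.BW SS.pt 1) d)
    (x : (SS.F (ZMod 2) (Gam (2 ^ k))).Z d)
    (hx : (SS.F (ZMod 2) (Gam (2 ^ k))).cls d x = (ctree (ZMod 2) 1 (2 ^ k)).mapH d y) :
    ev (((e.comp (stIn (r + 1) (2 ^ k))).pull (R := ZMod 2)).app d x.1) X.ξ = 0 := by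
  rw [← X.phi x, hx, ← hfun_apply, h1]
  rfl

/-- the value of `tr_2 P(v ^ c)` on the chain of boxes -/
theorem value_two {M : TowerModel} (K : Contract M) (X : Stage G e g r)
    (h1 : hfun G.phi 1 = 0) (h : G.phi ≠ 0) :
    ∃ (c s : ℕ) (hc : 0 + 2 * c = d), c + 1 = 2 ^ s ∧
      ∀ U : M.T.H 1 c, M.T.r 1 c U = io 1 (q 1 0 ^ c) →
        ∀ x : (SS.F (ZMod 2) (Gam (2 ^ k))).Z d,
          (SS.F (ZMod 2) (Gam (2 ^ k))).cls d x =
            (ctree (ZMod 2) 2 (2 ^ k)).mapH d (M.e 2 d (M.T.up 1 0 c d hc U)) →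
          ev (((e.comp (stIn (r + 1) (2 ^ k))).pull (R := ZMod 2)).app d x.1) X.ξ = 1 := by
  obtain ⟨c, s, hc, hs, hU, -⟩ := K.lead_two G h1 h
  refine ⟨c, s, hc, hs, fun U hUr x hx => ?_⟩
  rw [← X.phi x, hx, ← hfun_apply]
  exact hU U hUr

end Stage

/-- **The two cases.** -/
theorem stage_cases {M : TowerModel} (K : Contract M) (hG : G2MapStmt)
    (e : ∀ N, SS.Map (FN N Unit) (Gam N)) (he : ∀ N D, G.IsoUpTo (ZMod 2) D (e N)) {d : ℕ}
    (hd : 0 < d) (g : C(T0.Sph d, T0.Q0S0)) (hne : (T0.H d).map (TopCat.ofHom g) ≠ 0) :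
    ∃ (k : ℕ) (_ : 0 < k) (G : Geo d (2 ^ k)), G.phi ≠ 0 ∧
      (∃ r0 : ℕ, ∀ r, r0 ≤ r → Nonempty (Stage G (e (2 ^ k)) g r)) ∧
      ((hfun G.phi 1 ≠ 0 ∧ ∃ s : ℕ, d + 1 = 2 ^ s) ∨
        (hfun G.phi 1 = 0 ∧ hfun G.phi 2 ≠ 0 ∧ ∃ s : ℕ, d + 2 = 2 ^ (s + 1))) := by
  obtain ⟨k, hk, ρ, b, hbm, hb⟩ := hG (d + 3)
  have h4 : 3 ≤ 2 ^ k := by
    have : 2 ^ 2 ≤ 2 ^ k := Nat.pow_le_pow_right (by norm_num) hk
    omega
  obtain ⟨G, h0, hst⟩ := exists_stage hd h4 (by omega) hbm hb (e (2 ^ k)) (he _ _) g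
  have hphi : G.phi ≠ 0 := fun h => hne (h0.1 h)
  exact ⟨k, by omega, G, hphi, hst, K.cases G hphi⟩

/-- the representative of a stage -/
theorem Stage.rep {d N : ℕ} {G : Geo d N} {e : SS.Map (FN N Unit) (Gam N)} {g : T0.BMap d}
    {r : ℕ} (X : Stage G e g.1.hom r) : K.Rep g (r + 1) X.A :=
  ⟨X.A_infty g.2, X.hA⟩

/-- `g` has Hopf invariant one at all large stages -/
def HopfSt {d : ℕ} (g : T0.BMap d) : Prop :=
  ∃ r0 : ℕ, ∀ r, r0 ≤ r → ∃ (A : C(T0.Sph d, T0.Om (r + 1))) (h : K.Rep g (r + 1) A),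
    TJ.HopfOne (TJ.adjS A h.base)

/-- **The main theorem**, from the box value in length two: for a predicate `P`, such that `P g`
holds if there are stages whose leading functional has length two. -/
theorem main_of_stage {M : TowerModel} (K : Contract M) (hG : G2MapStmt)
    (e : ∀ N, SS.Map (FN N Unit) (Gam N)) (he : ∀ N D, G.IsoUpTo (ZMod 2) D (e N))
    (hc : ∀ N, CmpOne M (e N)) {d : ℕ} (hd : 0 < d) (g : T0.BMap d) (hg : T0.hur hd g ≠ 0)
    {P : Prop} (hP : ∀ (k : ℕ) (G : Geo d (2 ^ k)), 0 < k → hfun G.phi 1 = 0 → G.phi ≠ 0 →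
      (∃ r0 : ℕ, ∀ r, r0 ≤ r → Nonempty (Stage G (e (2 ^ k)) g.1.hom r)) → P) :
    ((∃ s : ℕ, d + 1 = 2 ^ s) ∧ HopfSt g) ∨
      ((∃ s : ℕ, 0 < s ∧ d + 2 = 2 ^ (s + 1)) ∧ P) := by
  have hne : (T0.H d).map (TopCat.ofHom g.1.hom) ≠ 0 := by
    intro h0
    apply hg
    show (T0.H d).map g.1 (T0.fund hd) = 0
    have h1 : (T0.H d).map g.1 = 0 := h0
    rw [h1]
    rfl
  obtain ⟨k, hk, G, hphi, ⟨r0, hst⟩, hcase⟩ := stage_cases K hG e he hd g.1.hom hne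
  rcases hcase with ⟨h1, h2⟩ | ⟨h1, -, s, hs⟩
  · refine Or.inl ⟨h2, max r0 d, fun r hr => ?_⟩
    obtain ⟨X⟩ := hst r (le_trans (le_max_left _ _) hr)
    exact ⟨X.A, X.rep, X.hopfOne K (hc _) g.2 hk (le_trans (le_max_right _ _) hr) h1⟩
  · refine Or.inr ⟨⟨s, ?_, hs⟩, hP k G hk h1 hphi ⟨r0, hst⟩⟩
    rcases Nat.eq_zero_or_pos s with rfl | h0
    · exfalso
      omega
    · exact h0

end Vale.Agent.P263.TOP
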