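import Vale.Agent.P263.TOP.Lit
import Vale.Agent.P263.TOP.LevelBLead
import Vale.Agent.P263.T0.Hur

/-!
# P263, GLUE (helper51): the literal image of the Hurewicz map has at most two elements

`singMap_add` : additivity on cohomology of the sum of two based maps.
`hur_eq` : any two nonzero classes `h_d(g)`, `h_d(g')` are equal.
-/

noncomputable section

namespace Vale.Agent.P263.TOP

open CategoryTheory Vale.Agent.P263.S Vale.Agent.P263.E Vale.Agent.P263.TI Vale.Agent.P263.TOP.H

/-- additivity in homology gives additivity in cohomology -/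
theorem mapH_of_H_map {S X : TopCat.{0}} {d : ℕ} {h f g : S ⟶ X}
    (e : (T0.H d).map h = (T0.H d).map f + (T0.H d).map g) (y : Co (G.sing X) d) :
    ((G.singMap h).pull (R := ZMod 2)).mapH d y =
      ((G.singMap f).pull (R := ZMod 2)).mapH d y +
        ((G.singMap g).pull (R := ZMod 2)).mapH d y := by
  obtain ⟨⟨c, hc⟩, rfl⟩ := (SS.F (ZMod 2) (G.sing X)).cls_surjective d y
  have hc' : T0.cobd (TopCat.toSSet.obj X) c = 0 :=
    (G.d_eq_cobd (TopCat.toSSet.obj X) c).symm.trans hc
  have e2 : ∀ a b : ZMod 2, a + b = a - b := by decide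
  have p : ∀ f : S ⟶ X, T0.cobd (TopCat.toSSet.obj S) (T0.pull (TopCat.toSSet.map f) c) = 0 :=
    fun f => T0.pull_cocycle _ _ hc'
  have h1 : T0.IsCobd (TopCat.toSSet.obj S) (T0.pull (TopCat.toSSet.map h) c +
        (T0.pull (TopCat.toSSet.map f) c + T0.pull (TopCat.toSSet.map g) c)) := by
    rw [← T0.evT_eq_zero_iff _ _ (T0.cocycle_add (p _) (T0.cocycle_add (p _) (p _))),
      T0.evT_add _ _ _ (p _) (T0.cocycle_add (p _) (p _)), T0.evT_add _ _ _ (p _) (p _),
      ← T0.H_map_evT h c hc', ← T0.H_map_evT f c hc', ← T0.H_map_evT g c hc', e,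
      Preadditive.add_comp]
    refine ModuleCat.hom_ext (LinearMap.ext fun x => ?_)
    exact CharTwo.add_self_eq_zero (R := ZMod 2) _
  rw [Hom.mapH_cls, Hom.mapH_cls, Hom.mapH_cls, ← map_add]
  rw [CosMod.cls_eq_iff]
  refine (G.isCobd_iff (TopCat.toSSet.obj S) _).1 ?_
  have h4 : (T0.pull (TopCat.toSSet.map h) c +
        (T0.pull (TopCat.toSSet.map f) c + T0.pull (TopCat.toSSet.map g) c)) =
      (T0.pull (TopCat.toSSet.map h) c -
        (T0.pull (TopCat.toSSet.map f) c + T0.pull (TopCat.toSSet.map g) c)) :=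
    funext fun x => e2 _ _
  rw [h4] at h1
  exact h1

/-- additivity in cohomology of the sum of two based maps -/
theorem singMap_add {d : ℕ} (hd : 0 < d) (f g : T0.BMap d) (y : Co (G.sing T0.Q0S0) d) :
    ((G.singMap (T0.BMap.add hd f g).1).pull (R := ZMod 2)).mapH d y =
      ((G.singMap f.1).pull (R := ZMod 2)).mapH d y +
        ((G.singMap g.1).pull (R := ZMod 2)).mapH d y :=
  mapH_of_H_map (T0.H_map_bsum hd f.1 g.1 (f.2.trans g.2.symm) hd.ne') y

/-- **Any two nonzero Hurewicz classes are equal.** -/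
theorem hur_eq {M : TowerModel} (K : Contract M) (hG : G2Stmt) {d : ℕ} (hd : 0 < d)
    (g g' : T0.BMap d) (h : T0.hur hd g ≠ 0) (h' : T0.hur hd g' ≠ 0) :
    T0.hur hd g = T0.hur hd g' := by
  obtain ⟨k, hk, Z, i, j, hi, hj⟩ := hG (d + 3)
  have h4 : 3 ≤ 2 ^ k := by
    have : 2 ^ 2 ≤ 2 ^ k := Nat.pow_le_pow_right (by norm_num) hk
    omega
  let G' : T0.BMap d → Geo d (2 ^ k) := fun g =>
    { hN := h4
      Z := Z
      A := singS d
      D := d + 2
      hD := le_rfl
      c := i
      a := j.comp (G.singMap g.1)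
      hc := fun n hn => ⟨hi.1 n (by omega), hi.2 n (by omega)⟩
      hA := sphLike_singS hd
      fund := fundS hd }
  have hz : ∀ g : T0.BMap d, (G' g).phi = 0 ↔ T0.hur hd g = 0 := by
    intro g
    rw [T0.hur_eq_zero_iff, G.H_map_eq_zero_iff_mapH, (G' g).phi_eq_zero_iff]
    constructor
    · intro h
      refine LinearMap.ext fun x => ?_
      obtain ⟨z, rfl⟩ := hj.2 d (by omega) x
      have h2 := h z
      rw [← Hom.mapH_comp]
      exact h2
    · intro h z
      show ((j.comp (G.singMap g.1)).pull).mapH d z = 0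
      rw [SS.Map.pull_comp, Hom.mapH_comp, h]
      rfl
  have hadd : (G' (T0.BMap.add hd g g')).phi = (G' g).phi + (G' g').phi := by
    refine LinearMap.ext fun x => ?_
    obtain ⟨z, rfl⟩ := hi.2 d (by omega) x
    rw [LinearMap.add_apply]
    refine ((G' (T0.BMap.add hd g g')).phi_res z).trans (Eq.trans ?_
      (congrArg₂ (· + ·) ((G' g).phi_res z) ((G' g').phi_res z)).symm)
    show fundS hd (((j.comp (G.singMap (T0.BMap.add hd g g').1)).pull).mapH d z) =
      fundS hd (((j.comp (G.singMap g.1)).pull).mapH d z) +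
        fundS hd (((j.comp (G.singMap g'.1)).pull).mapH d z)
    rw [SS.Map.pull_comp, SS.Map.pull_comp, SS.Map.pull_comp, Hom.mapH_comp, Hom.mapH_comp,
      Hom.mapH_comp, singMap_add, map_add]
  have h1 := K.phi_unique (G' g) (G' g') (G' (T0.BMap.add hd g g')) hadd
    (fun h2 => h ((hz g).1 h2)) (fun h2 => h' ((hz g').1 h2))
  have h5 : T0.hur hd (T0.BMap.add hd g g') = 0 := by
    rw [← hz, hadd, h1]
    refine LinearMap.ext fun x => ?_
    exact CharTwo.add_self_eq_zero (R := ZMod 2) _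
  rw [T0.hur_add] at h5
  have h6 : T0.hur hd g' + T0.hur hd g' = 0 := by
    rw [← two_smul (ZMod 2), show (2 : ZMod 2) = 0 from rfl, zero_smul]
  rw [← add_zero (T0.hur hd g), ← h6, ← add_assoc, h5, zero_add]

/-- **The image of the Hurewicz map has at most two elements.** -/
theorem range_hur {M : TowerModel} (K : Contract M) (hG : G2Stmt) {d : ℕ} (hd : 0 < d) :
    ∃ x : (T0.HQ d : Type), Set.range (T0.hur hd) ⊆ {0, x} := by
  by_cases h : ∃ g : T0.BMap d, T0.hur hd g ≠ 0
  · obtain ⟨g, hg⟩ := h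
    refine ⟨T0.hur hd g, ?_⟩
    rintro _ ⟨g', rfl⟩
    by_cases h' : T0.hur hd g' = 0
    · exact Or.inl h'
    · exact Or.inr (hur_eq K hG hd g' g h' hg)
  · push Not at h
    refine ⟨0, ?_⟩
    rintro _ ⟨g', rfl⟩
    exact Or.inl (h g')

end Vale.Agent.P263.TOP
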