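import Vale.Agent.P263.TOP.G2Map
import Vale.Agent.P263.G2.MixTel

/-!
# P263, block TOP: `G2MapStmt` and `G2Stmt` hold
-/

namespace Vale.Agent.P263.TOP

open Vale.Agent.P263.G2

/-- **The literal comparison map `boxes # ρ : BΣ_{2^k} → Q₀S⁰`, isomorphism in every range.** -/
theorem g2MapStmt : G2MapStmt := g2MapStmt_of mix_telAlpha_two

/-- **Output of the block `[G2]`.** -/
theorem g2Stmt : G2Stmt := g2MapStmt.g2Stmt

end Vale.Agent.P263.TOP
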