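import Vale.Agent.P251.G.LC
import Mathlib.Topology.CompactOpen
import Mathlib.Topology.Maps.Proper.Basic
import Mathlib.Topology.Hom.ContinuousEvalConst

/-!
# P263, topology: the suspension map is a closed embedding

`BMap X Y` : the space of based maps `X⁺ → Y⁺` (compact-open topology), for locally compact
Hausdorff spaces `X`, `Y`.

* `BMap.sus Z f : BMap (X × Z) (Y × Z)` : the map `f ∧ 1`;
* `BMap.isClosedEmbedding_sus` : `f ↦ f ∧ 1` is a closed embedding, if `Z` is not empty.
-/

open OnePoint Topology Vale.Agent.P251.G

namespace Vale.Agent.P263.TOP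

variable {X Y Z : Type} [TopologicalSpace X] [T2Space X] [LocallyCompactSpace X]
  [TopologicalSpace Y] [T2Space Y] [LocallyCompactSpace Y]
  [TopologicalSpace Z] [T2Space Z] [LocallyCompactSpace Z]

variable (X Y) in
/-- the space of based maps `X⁺ → Y⁺` -/
abbrev BMap : Type := {f : C(OnePoint X, OnePoint Y) // f ∞ = ∞}

omit [TopologicalSpace X] [T2Space X] [LocallyCompactSpace X] [TopologicalSpace Z] [T2Space Z]
  [LocallyCompactSpace Z] in
theorem smash_surjective :
    Function.Surjective fun p : OnePoint X × OnePoint Z => LC.smash p.1 p.2 := by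
  intro q
  induction q using OnePoint.rec with
  | infty => exact ⟨(∞, ∞), rfl⟩
  | coe q => exact ⟨((q.1 : OnePoint X), (q.2 : OnePoint Z)), rfl⟩

theorem isProperMap_smash :
    IsProperMap fun p : OnePoint X × OnePoint Z => LC.smash p.1 p.2 :=
  LC.continuous_smash.isProperMap

namespace BMap

/-- the underlying function of `f ∧ 1` -/
def susFun (f : OnePoint X → OnePoint Y) (q : OnePoint (X × Z)) : OnePoint (Y × Z) :=
  q.elim ∞ fun p => LC.smash (f (p.1 : OnePoint X)) (p.2 : OnePoint Z)

omit [TopologicalSpace X] [T2Space X] [LocallyCompactSpace X] [TopologicalSpace Y] [T2Space Y]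
  [LocallyCompactSpace Y] [TopologicalSpace Z] [T2Space Z] [LocallyCompactSpace Z] in
theorem susFun_smash {f : OnePoint X → OnePoint Y} (hf : f ∞ = ∞) (x : OnePoint X)
    (z : OnePoint Z) : susFun f (LC.smash x z) = LC.smash (f x) z := by
  induction x using OnePoint.rec with
  | infty => rw [LC.smash_infty_left, hf, LC.smash_infty_left]; rfl
  | coe x =>
    induction z using OnePoint.rec with
    | infty => rw [LC.smash_infty_right, LC.smash_infty_right]; rfl
    | coe z => rfl

theorem continuous_susFun {P : Type*} [TopologicalSpace P] {F : P → BMap X Y}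
    (hF : Continuous F) : Continuous fun p : P × OnePoint (X × Z) => susFun (F p.1).1 p.2 := by
  have hq : IsQuotientMap (Prod.map (id : P → P)
      fun p : OnePoint X × OnePoint Z => LC.smash p.1 p.2) :=
    (isProperMap_id.prodMap isProperMap_smash).isClosedMap.isQuotientMap
      (continuous_id.prodMap LC.continuous_smash)
      (Function.surjective_id.prodMap smash_surjective)
  rw [hq.continuous_iff]
  have h1 : (fun p : P × OnePoint (X × Z) => susFun (F p.1).1 p.2) ∘ (Prod.map (id : P → P)
      fun p : OnePoint X × OnePoint Z => LC.smash p.1 p.2) =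
      fun p => LC.smash ((F p.1).1 p.2.1) p.2.2 := by
    funext p
    exact susFun_smash (F p.1).2 p.2.1 p.2.2
  rw [h1]
  refine LC.continuous_smash.comp (Continuous.prodMk ?_ (continuous_snd.comp continuous_snd))
  exact ContinuousEval.continuous_eval.comp (((continuous_subtype_val.comp hF).comp
    continuous_fst).prodMk (continuous_fst.comp continuous_snd))

variable (Z) in
/-- the map `f ∧ 1` -/
def sus (f : BMap X Y) : BMap (X × Z) (Y × Z) :=
  ⟨⟨susFun f.1, (continuous_susFun (P := Unit) (F := fun _ => f) continuous_const).comp
    (Continuous.prodMk continuous_const continuous_id : Continuous fun q => ((), q))⟩, rfl⟩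

theorem sus_smash (f : BMap X Y) (x : OnePoint X) (z : OnePoint Z) :
    (sus Z f).1 (LC.smash x z) = LC.smash (f.1 x) z := susFun_smash f.2 x z

theorem continuous_sus : Continuous (sus Z : BMap X Y → BMap (X × Z) (Y × Z)) := by
  refine Continuous.subtype_mk ?_ _
  exact ContinuousMap.continuous_of_continuous_uncurry _ (continuous_susFun continuous_id)

/-- the inclusion `y ↦ y ∧ z` -/
def slice (Y : Type) [TopologicalSpace Y] [T2Space Y] [LocallyCompactSpace Y] (z : Z) :
    C(OnePoint Y, OnePoint (Y × Z)) :=
  ⟨fun y => LC.smash y (z : OnePoint Z), LC.continuous_smash.comp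
    (continuous_id.prodMk continuous_const)⟩

theorem slice_injective (z : Z) : Function.Injective (slice Y z) := by
  intro y y' h
  have h' : LC.smash y (z : OnePoint Z) = LC.smash y' (z : OnePoint Z) := h
  induction y using OnePoint.rec with
  | infty =>
    induction y' using OnePoint.rec with
    | infty => rfl
    | coe y' => exact absurd h'.symm (OnePoint.coe_ne_infty _)
  | coe y =>
    induction y' using OnePoint.rec with
    | infty => exact absurd h' (OnePoint.coe_ne_infty _)
    | coe y' => exact congrArg _ (congrArg Prod.fst (OnePoint.coe_injective h'))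

/-- **The suspension map is a closed embedding.** -/
theorem isClosedEmbedding_sus [Nonempty Z] :
    IsClosedEmbedding (sus Z : BMap X Y → BMap (X × Z) (Y × Z)) := by
  obtain ⟨z⟩ := ‹Nonempty Z›
  -- restriction to the slice
  let r : BMap (X × Z) (Y × Z) → C(OnePoint X, OnePoint (Y × Z)) := fun g => g.1.comp (slice X z)
  have hr : Continuous r := (ContinuousMap.continuous_precomp _).comp continuous_subtype_val
  have hj : IsClosedEmbedding fun f : BMap X Y => (slice Y z).comp f.1 := by
    have h1 : IsClosedEmbedding (Subtype.val : BMap X Y → C(OnePoint X, OnePoint Y)) :=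
      (isClosed_eq (continuous_eval_const _) continuous_const
        ).isClosedEmbedding_subtypeVal
    have hz : IsClosedEmbedding (slice Y z) :=
      (slice Y z).continuous.isClosedEmbedding (slice_injective z)
    refine IsClosedEmbedding.comp (g := fun f : C(OnePoint X, OnePoint Y) => (slice Y z).comp f)
      ⟨ContinuousMap.isEmbedding_postcomp _ hz.isEmbedding, ?_⟩ h1
    have h2 : Set.range (fun f : C(OnePoint X, OnePoint Y) => (slice Y z).comp f) =
        {f : C(OnePoint X, OnePoint (Y × Z)) | Set.MapsTo f Set.univ (Set.range (slice Y z))} := by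
      ext g
      constructor
      · rintro ⟨f, rfl⟩ x _
        exact ⟨f x, rfl⟩
      · intro hg
        choose f hf using fun x => hg (Set.mem_univ x)
        refine ⟨⟨f, ?_⟩, ContinuousMap.ext hf⟩
        rw [hz.isInducing.continuous_iff]
        exact g.continuous.congr fun x => (hf x).symm
    rw [h2]
    exact ContinuousMap.isClosed_setOfPred_mapsTo hz.isClosed_range _
  have h2 : r ∘ (sus Z : BMap X Y → _) = fun f => (slice Y z).comp f.1 := by
    funext f
    exact ContinuousMap.ext fun x => sus_smash f x (z : OnePoint Z)
  have h3 : IsProperMap (sus Z : BMap X Y → BMap (X × Z) (Y × Z)) :=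
    isProperMap_of_comp_of_t2 continuous_sus hr (h2 ▸ hj.isProperMap)
  refine IsClosedEmbedding.of_continuous_injective_isClosedMap continuous_sus ?_ h3.isClosedMap
  exact Function.Injective.of_comp (f := r) (h2 ▸ hj.injective)

end BMap

end Vale.Agent.P263.TOP
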