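import Vale.Agent.P263.TOP.LitR
import Vale.Agent.P263.TOP.LitMap
import Vale.Agent.P263.G2.StabMix

/-!
# P263, block TOP: the literal comparison map and its range

* `boxMap_of` : a criterion for `BoxMap N ρ b`.
* `bQ N v : FN N Unit → Sing Q₀S⁰` : the boxes followed by the vertex `v` of degree `-N`;
  `boxMap_bQ`, `isoUpTo_bQ`.
* `g2MapStmt_of` : `G2MapStmt` from `RZ0` of `telAlpha`.
-/

noncomputable section

open Topology CategoryTheory
open scoped OnePoint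

namespace Vale.Agent.P263.TOP

open Vale.Agent.P263.S Vale.Agent.P263.E Vale.Agent.P263.G2 Vale.Agent.P263.GB
open Vale.Agent.P263.T0 (Om QS0 Q0S0)

/-- the point of `QS⁰` given by a vertex -/
theorem exists_rho (v : (MixSS Unit Empty).obj 0) : ∃ ρ : QS0,
    ((MixSS.toQ Unit Empty).app v).1 = pvF fun _ => ρ := by
  obtain ⟨r0, h⟩ := LitR.exists_vertex v
  obtain ⟨R, hR⟩ := h r0 le_rfl
  exact ⟨_, hR⟩

/-- a criterion for the literal comparison map -/
theorem boxMap_of {N : ℕ} {b : SS.Map (FN N Unit) (sing Q0S0)} {v : (MixSS Unit Empty).obj 0}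
    {ρ : QS0} (hv : ((MixSS.toQ Unit Empty).app v).1 = pvF fun _ => ρ)
    (hb : ∀ {p : ℕ} (S : (FN N Unit).obj p), ∃ x : (MixSS Empty Unit).obj p,
      (show Mix Empty Unit (Dl p) from x).S = S.1 ∧
      singToQI.app ((singMap q0in).app (b.app S)) = (MixSS.toQ Unit Empty).app
        ((mixG.mulR (K := Unit) (L := Empty) v).app ((mixG.alpha.app Unit).app x))) :
    BoxMap N ρ b := by
  intro r R hR
  refine SS.Map.ext fun p S => singToQI_injective p ?_
  obtain ⟨x, hx, h⟩ := hb ((stIn (r + 1) N).app S)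
  refine h.trans ?_
  refine LitR.toQ_boxes (r := r) (N := N) (R := R) ?_ S x hx
  rw [hv, ← hR]
  rfl

theorem toF_bij (p : ℕ) : Function.Bijective ((MixSS.toF Empty Unit).app (p := p)) :=
  Function.bijective_iff_has_inverse.2 ⟨(MixSS.ofF Empty Unit).app,
    fun x => MixSS.ofF_toF Empty Unit x, fun S => MixSS.toF_ofF Empty Unit S⟩

theorem dF_deg {p : ℕ} (x : (MixSS Empty Unit).obj p) :
    mixG.dF.deg x = ((Conf.pts ((MixSS.toF Empty Unit).app x)).card : ℤ) :=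
  MixSS.deg_alphaQ x

theorem is_aF {p : ℕ} (x : (MixSS Empty Unit).obj p) :
    mixAdd.Is ((MixSS.toF Empty Unit).app x) ((MixSS.toF Empty Unit).app (mixG.aF.app x)) := by
  have h1 : mixG.boxL (K := Empty) (L := Unit) () p = mixG.box p :=
    mixG.map_eq_self (fun k => k.elim) (fun _ => rfl) _
  have h2 : mixG.aF.app x = (mixG.mul Empty Unit).app (x, mixG.box p) := by
    refine (mixG.aF_app x).trans ?_
    rw [h1]
  rw [h2]
  exact is_mul_box (show Mix Empty Unit (Dl p) from x)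

/-- the families of `N` boxes -/
def fnM (N : ℕ) : SS.Map (FN N Unit) (mixG.dF.fib (N : ℤ)).sub :=
  fnToFib (MixSS.toF Empty Unit) toF_bij mixG.dF dF_deg N

theorem fnM_S (N : ℕ) {p : ℕ} (S : (FN N Unit).obj p) :
    (show Mix Empty Unit (Dl p) from ((fnM N).app S).1).S = S.1 :=
  e_fnToFib (MixSS.toF Empty Unit) toF_bij mixG.dF dF_deg N S

/-- the loops of degree zero -/
def toQ0 : SS.Map (mixG.dQ.fib 0).sub (qLC.fib 0).sub :=
  (mixG.dQ.fib 0).map (qLC.fib 0) (MixSS.toQ Unit Empty) fun _ hx => hx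

theorem toQ0_bij (p : ℕ) : Function.Bijective (toQ0.app (p := p)) := by
  constructor
  · intro x y h
    apply Subtype.ext
    rw [← MixSS.ofQ_toQ Unit Empty x.1, ← MixSS.ofQ_toQ Unit Empty y.1]
    exact congrArg (fun z => (MixSS.ofQ Unit Empty).app z) (congrArg Subtype.val h)
  · rintro ⟨y, hy⟩
    refine ⟨⟨(MixSS.ofQ Unit Empty).app y, ?_⟩, Subtype.ext (MixSS.toQ_ofQ Unit Empty y)⟩
    show MixSS.deg ((MixSS.ofQ Unit Empty).app y) = 0
    unfold MixSS.deg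
    rw [MixSS.toQ_ofQ]
    exact hy

/-- the boxes followed by the vertex `v` -/
def bQ (N : ℕ) (v : (MixSS Unit Empty).obj 0) (hv : (N : ℤ) + mixG.deg v = 0) :
    SS.Map (FN N Unit) (sing Q0S0) :=
  (invMap q0 q0_bijective).comp (toQ0.comp ((mixG.boxR N v hv).comp (fnM N)))

theorem q0_bQ {N : ℕ} {v : (MixSS Unit Empty).obj 0} {hv : (N : ℤ) + mixG.deg v = 0} {p : ℕ}
    (S : (FN N Unit).obj p) :
    q0.app ((bQ N v hv).app S) = toQ0.app ((mixG.boxR N v hv).app ((fnM N).app S)) :=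
  e_invMap q0 q0_bijective _

/-- **`bQ` is `boxes # ρ`.** -/
theorem boxMap_bQ {N : ℕ} {v : (MixSS Unit Empty).obj 0} {hv : (N : ℤ) + mixG.deg v = 0}
    {ρ : QS0} (hρ : ((MixSS.toQ Unit Empty).app v).1 = pvF fun _ => ρ) :
    BoxMap N ρ (bQ N v hv) := by
  refine boxMap_of hρ fun {p} S => ⟨((fnM N).app S).1, fnM_S N S, ?_⟩
  have h := congrArg Subtype.val (q0_bQ (v := v) (hv := hv) S)
  rw [q0_coe] at h
  exact h

theorem isoUpTo_of_bij {X Y : SS} (f : SS.Map X Y) (hf : ∀ p, Function.Bijective (f.app (p := p)))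
    (D : ℕ) : G.IsoUpTo (ZMod 2) D f := by
  have h1 : f.comp (invMap f hf) = SS.Map.id Y := SS.Map.ext fun p y => e_invMap f hf y
  have h2 : (invMap f hf).comp f = SS.Map.id X := SS.Map.ext fun p x =>
    (hf p).1 (e_invMap f hf (f.app x))
  exact ⟨fun n _ => (bijective_mapH_of_inverse h1 h2 n).1,
    fun n _ => (bijective_mapH_of_inverse h1 h2 n).2⟩

theorem invMap_bij {X Y : SS} (f : SS.Map X Y) (hf : ∀ p, Function.Bijective (f.app (p := p)))
    (p : ℕ) : Function.Bijective ((invMap f hf).app (p := p)) :=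
  (Equiv.ofBijective _ (hf p)).symm.bijective

/-- **The range of `bQ`.** -/
theorem isoUpTo_bQ {N D : ℕ} (hN : 2 * (D + 1) ≤ N) (v : (MixSS Unit Empty).obj 0)
    (hv : (N : ℤ) + mixG.deg v = 0)
    (hT : ∀ j, RZ0 (freeMap (ZMod 2) mixG.telAlpha).cx j) :
    G.IsoUpTo (ZMod 2) D (bQ N v hv) := by
  have h1 : G.IsoUpTo (ZMod 2) D (mixG.boxR N v hv) :=
    mixG.isoUpTo_boxR mixInv N v hv D hT fun j hj n hn =>
      ⟨hInj_fibS mixAdd (MixSS.toF Empty Unit) toF_bij mixG.aF (fun x => is_aF x) mixG.dF dF_deg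
        (by omega),
       hSurj_fibS mixAdd (MixSS.toF Empty Unit) toF_bij mixG.aF (fun x => is_aF x) mixG.dF dF_deg
        (by omega)⟩
  have h2 : G.IsoUpTo (ZMod 2) D (fnM N) := isoUpTo_of_bij _
    (fnToFib_bijective (MixSS.toF Empty Unit) toF_bij mixG.dF dF_deg N) D
  exact (isoUpTo_of_bij _ (invMap_bij q0 q0_bijective) D).comp
    ((isoUpTo_of_bij toQ0 toQ0_bij D).comp (h1.comp h2))

/-- **`G2MapStmt`.** -/
theorem g2MapStmt_of (hT : ∀ j, RZ0 (freeMap (ZMod 2) mixG.telAlpha).cx j) : G2MapStmt := by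
  intro D
  obtain ⟨k, hk⟩ : ∃ k : ℕ, 2 * (D + 1) ≤ 2 ^ k := ⟨2 * (D + 1), Nat.lt_two_pow_self.le⟩
  have hk' : 2 * (D + 1) ≤ 2 ^ (k + 2) := hk.trans (Nat.pow_le_pow_right two_pos (by omega))
  obtain ⟨v, hv⟩ := MixSS.exists_deg (-((2 ^ (k + 2) : ℕ) : ℤ))
  obtain ⟨ρ, hρ⟩ := exists_rho v
  have hv' : ((2 ^ (k + 2) : ℕ) : ℤ) + mixG.deg v = 0 := by
    have : mixG.deg v = -((2 ^ (k + 2) : ℕ) : ℤ) := hv
    rw [this]
    ring
  exact ⟨k + 2, by omega, ρ, bQ (2 ^ (k + 2)) v hv', boxMap_bQ hρ, isoUpTo_bQ hk' v hv' hT⟩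

end Vale.Agent.P263.TOP
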