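import Vale.Agent.P263.TOP.Lit
import Vale.Agent.P263.G.Zig
import Vale.Agent.P263.E.Cofree

/-!
# P263, GLUE, level B: the geometric data of a span `Gam N ← C → Y` (helper255)

* `Glue.mapH_ends` : `f^* (inX^* z) = g^* (inY^* z)` in `H^n(C)` for a class `z` of the double
  mapping cylinder.
* `Glue.exists_glue` : classes `y` on `X` and `x` on `Y` with `f^* y = g^* x` come from one class
  of the double mapping cylinder, in the range.
* `geoBox` : the geometric data of a map `A → Y`; `geoBox_phi` : `phi y = fund (α^* x)` as soon as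
  `f^* y = g^* x` in `H^d(C)`.
* `geoBox_phi_eq_zero_iff`.
* `exists_geoBox` : the same for a map `Sᵈ → Q₀S⁰`.
-/

noncomputable section

namespace Vale.Agent.P263.G

open Vale.Agent.P263.S Vale.Agent.P263.E

/-- the homotopy between the two ends of the cylinder -/
def Glue.endHtp (C : SS) : SS.Htp C (C.prod JJ) where
  h _ χ c := (c, fun v => decide (χ v = 1))
  nat _ _ _ := rfl

theorem Glue.endHtp_e0 (C : SS) : (Glue.endHtp C).e0 = Glue.inE C false := by
  ext p c
  refine Prod.ext rfl (funext fun v => ?_)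
  show decide (c0 p v = 1) = false
  rw [c0_val]
  rfl

theorem Glue.endHtp_e1 (C : SS) : (Glue.endHtp C).e1 = Glue.inE C true := by
  ext p c
  refine Prod.ext rfl (funext fun v => ?_)
  show decide (c1 p v = 1) = true
  rw [c1_val]
  rfl

variable {R : Type} [CommRing R] {X Y C : SS} (f : SS.Map C X) (g : SS.Map C Y)

/-- the two ends of the cylinder agree in cohomology -/
theorem Glue.mapH_ends (n : ℕ) (z : (SS.F R (Glue.W f g)).H n) :
    (f.pull (R := R)).mapH n (((Glue.inX f g).pull (R := R)).mapH n z) =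
      (g.pull (R := R)).mapH n (((Glue.inY f g).pull (R := R)).mapH n z) := by
  rw [← Hom.mapH_comp, ← Hom.mapH_comp, ← SS.Map.pull_comp, ← SS.Map.pull_comp,
    ← Glue.inC_false, ← Glue.inC_true, SS.Map.pull_comp, SS.Map.pull_comp, Hom.mapH_comp,
    Hom.mapH_comp, ← Glue.endHtp_e0, ← Glue.endHtp_e1]
  exact ((Glue.endHtp C).mapH_eq n _).symm

/-- classes which agree on `C` come from the double mapping cylinder -/
theorem Glue.exists_glue {D : ℕ} (hg : IsoUpTo R D g) {n : ℕ} (hn : n < D)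
    (y : (SS.F R X).H n) (x : (SS.F R Y).H n)
    (h : (f.pull (R := R)).mapH n y = (g.pull (R := R)).mapH n x) :
    ∃ z : (SS.F R (Glue.W f g)).H n, ((Glue.inX f g).pull (R := R)).mapH n z = y ∧
      ((Glue.inY f g).pull (R := R)).mapH n z = x := by
  obtain ⟨z, hz⟩ := (isoUpTo_inX f hg).2 n hn y
  refine ⟨z, hz, hg.1 n hn.le ?_⟩
  rw [← Glue.mapH_ends, hz, h]

end Vale.Agent.P263.G

namespace Vale.Agent.P263.TOP

open CategoryTheory Vale.Agent.P263.S Vale.Agent.P263.E Vale.Agent.P263.TI Vale.Agent.P263.TOP.H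
open Vale.Agent.P263.G

variable {d N : ℕ}

/-- the geometric data of a sphere `α : A → Y` and a span `Gam N ← C → Y` -/
def geoBox (hN : 3 ≤ N) {C Y A : SS} (f : SS.Map C (Gam N)) (g : SS.Map C Y) {D : ℕ}
    (hD : d + 2 < D) (hg : IsoUpTo (ZMod 2) D g) (α : SS.Map A Y) (hA : SphLike (ZMod 2) A d)
    (fund : Co A d ≃ₗ[ZMod 2] ZMod 2) : Geo d N where
  hN := hN
  Z := Glue.W f g
  A := A
  D := d + 2
  hD := le_rfl
  c := Glue.inX f g
  a := (Glue.inY f g).comp α
  hc j hj := ⟨(isoUpTo_inX f hg).1 j (by omega), (isoUpTo_inX f hg).2 j (by omega)⟩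
  hA := hA
  fund := fund

section

variable (hN : 3 ≤ N) {C Y A : SS} (f : SS.Map C (Gam N)) (g : SS.Map C Y) {D : ℕ}
    (hD : d + 2 < D) (hg : IsoUpTo (ZMod 2) D g) (α : SS.Map A Y) (hA : SphLike (ZMod 2) A d)
    (fund : Co A d ≃ₗ[ZMod 2] ZMod 2)

/-- **the value of the functional on a class which agrees with `x` on `C`** -/
theorem geoBox_phi (y : Co (Gam N) d) (x : Co Y d)
    (h : (f.pull (R := ZMod 2)).mapH d y = (g.pull (R := ZMod 2)).mapH d x) :
    (geoBox hN f g hD hg α hA fund).phi y = fund ((α.pull (R := ZMod 2)).mapH d x) := by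
  obtain ⟨z, hz, hx⟩ := Glue.exists_glue f g hg (by omega : d < D) y x h
  have h1 := (geoBox hN f g hD hg α hA fund).phi_res z
  have h2 : (geoBox hN f g hD hg α hA fund).phi y = fund
      ((((Glue.inY f g).comp α).pull (R := ZMod 2)).mapH d z) := by
    rw [← hz]
    exact h1
  rw [h2, SS.Map.pull_comp, Hom.mapH_comp, hx]

/-- the functional is zero iff `α` is zero in cohomology -/
theorem geoBox_phi_eq_zero_iff (hf : IsoUpTo (ZMod 2) D f) :
    (geoBox hN f g hD hg α hA fund).phi = 0 ↔ (α.pull (R := ZMod 2)).mapH d = 0 := by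
  rw [Geo.phi_eq_zero_iff]
  constructor
  · intro h
    refine LinearMap.ext fun x => ?_
    obtain ⟨z, rfl⟩ := (isoUpTo_inY g hf).2 d (by omega) x
    rw [← Hom.mapH_comp, ← SS.Map.pull_comp]
    exact h z
  · intro h
    have h1 : ∀ z : Co (Glue.W f g) d, (((Glue.inY f g).comp α).pull (R := ZMod 2)).mapH d z = 0 := by
      intro z
      rw [SS.Map.pull_comp, Hom.mapH_comp, h]
      rfl
    exact h1

end

/-- **The geometric data of a map `Sᵈ → Q₀S⁰` and a span `Gam (2^k) ← C → Q₀S⁰`.** -/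
theorem exists_geoBox (hN : 3 ≤ N) (hd : 0 < d) {C : SS} (f : SS.Map C (Gam N))
    (g : SS.Map C (sing T0.Q0S0)) {D : ℕ} (hD : d + 2 < D) (hf : IsoUpTo (ZMod 2) D f)
    (hg : IsoUpTo (ZMod 2) D g) (a : TopCat.of (T0.Sph d) ⟶ T0.Q0S0) :
    ∃ G' : Geo d N, (G'.phi = 0 ↔ (T0.H d).map a = 0) ∧
      ∀ (y : Co (Gam N) d) (x : Co (sing T0.Q0S0) d),
        (f.pull (R := ZMod 2)).mapH d y = (g.pull (R := ZMod 2)).mapH d x →
        G'.phi y = fundS hd (((singMap a).pull (R := ZMod 2)).mapH d x) :=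
  ⟨geoBox hN f g hD hg (singMap a) (sphLike_singS hd) (fundS hd),
    (geoBox_phi_eq_zero_iff hN f g hD hg _ _ _ hf).trans (H_map_eq_zero_iff_mapH _ _).symm,
    fun y x h => geoBox_phi hN f g hD hg _ _ _ y x h⟩

end Vale.Agent.P263.TOP
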