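import Vale.Agent.P263.TOP.HCol
import Vale.Agent.P263.T0.Compact
import Vale.Agent.P263.T0.Based

/-!
# P263, topology: the homology of `QS⁰` is the colimit of the homology of `Ωʳ Sʳ`
-/

open CategoryTheory Limits Topology

namespace Vale.Agent.P263.TOP

open Vale.Agent.P263.T0 (Om omSeq QS0 toQ)

theorem isClosedEmbedding_omSeq (n : ℕ) :
    IsClosedEmbedding (omSeq.map (homOfLE (Nat.le_succ n))) :=
  T0.isClosedEmbedding_map (Nat.le_succ n)

/-- every homology class of `QS⁰` comes from some `Ωʳ Sʳ` -/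
theorem exists_H_Om (d : ℕ) (x : (T0.H d).obj QS0) :
    ∃ (r : ℕ) (y : (T0.H d).obj (TopCat.of (Om r))), (T0.H d).map (toQ r) y = x :=
  exists_SH (ModuleCat.of (ZMod 2) (ZMod 2)) (F := omSeq) isClosedEmbedding_omSeq
    (fun _ => inferInstanceAs (T1Space (Om _))) (colimit.isColimit omSeq) d x

/-- **(B2)** a homology class of `Ωʳ Sʳ` that dies in `QS⁰` dies in some `Ωˢ Sˢ` -/
theorem exists_H_Om_zero (d : ℕ) {r : ℕ} (x : (T0.H d).obj (TopCat.of (Om r)))
    (hx : (T0.H d).map (toQ r) x = 0) :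
    ∃ (s : ℕ) (h : r ≤ s), (T0.H d).map (omSeq.map (homOfLE h)) x = 0 :=
  exists_SH_zero (ModuleCat.of (ZMod 2) (ZMod 2)) (F := omSeq) isClosedEmbedding_omSeq
    (fun _ => inferInstanceAs (T1Space (Om _))) (colimit.isColimit omSeq) d x hx

/-! ### The component of the constant map -/

open Vale.Agent.P263.T0 (Om0 map0 toQ0 Q0S0)

/-- the sequence of the components of the constant maps -/
def om0Seq : ℕ ⥤ TopCat.{0} where
  obj r := Om0 r
  map f := map0 (leOfHom f)
  map_id r := T0.map0_refl r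
  map_comp f g := (T0.map0_comp (leOfHom f) (leOfHom g)).symm

/-- the cocone with point `Q₀S⁰` -/
noncomputable def om0Cocone : Cocone om0Seq where
  pt := Q0S0
  ι := { app := fun r => toQ0 r
         naturality := fun r s f => by
          have h := T0.map0_toQ0 (leOfHom f)
          exact h }

theorem exists_simplex0 (q : SimplexCategoryᵒᵖ) (x : (TopCat.toSSet.obj Q0S0).obj q) :
    ∃ (n : ℕ) (y : (TopCat.toSSet.obj (Om0 n)).obj q),
      x = (TopCat.toSSet.map (toQ0 n)).app q y := by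
  have h1 : PathConnectedSpace (stdSimplex ℝ (Fin (q.unop.len + 1))) := by
    infer_instance
  obtain ⟨n, -, g, hg⟩ := T0.exists_factor0 (TopCat.toSSetObjEquiv Q0S0 q x) 0
  refine ⟨n, (TopCat.toSSetObjEquiv (Om0 n) q).symm g, ?_⟩
  apply (TopCat.toSSetObjEquiv Q0S0 q).injective
  rw [toSSetObjEquiv_map, Equiv.apply_symm_apply]
  exact ContinuousMap.ext fun y => (hg y).symm

theorem simplex0_injective (n : ℕ) (q : SimplexCategoryᵒᵖ) :
    Function.Injective ((TopCat.toSSet.map (toQ0 n)).app q) := by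
  intro x y h
  apply (TopCat.toSSetObjEquiv (Om0 n) q).injective
  have h1 := congrArg (TopCat.toSSetObjEquiv Q0S0 q) h
  rw [toSSetObjEquiv_map, toSSetObjEquiv_map] at h1
  exact ContinuousMap.ext fun z => T0.toQ0_injective n (DFunLike.congr_fun h1 z)

/-- `Sing Q₀S⁰ = colim Sing (Ωʳ Sʳ)₀` -/
noncomputable def isColimitSing0 : IsColimit (TopCat.toSSet.mapCocone om0Cocone) :=
  evaluationJointlyReflectsColimits _ fun q =>
    Types.FilteredColimit.isColimitOf' _ _ (fun x => exists_simplex0 q x)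
      fun n x y h => ⟨n, 𝟙 n, by rw [simplex0_injective n q h]⟩

/-- every homology class of `Q₀S⁰` comes from some `(Ωʳ Sʳ)₀` -/
theorem exists_H_Om0 (d : ℕ) (x : (T0.H d).obj Q0S0) :
    ∃ (r : ℕ) (y : (T0.H d).obj (Om0 r)), (T0.H d).map (toQ0 r) y = x :=
  exists_class (ModuleCat.of (ZMod 2) (ZMod 2)) isColimitSing0 d x

/-- **(B2)** a homology class of `(Ωʳ Sʳ)₀` that dies in `Q₀S⁰` dies in some `(Ωˢ Sˢ)₀` -/
theorem exists_H_Om0_zero (d : ℕ) {r : ℕ} (x : (T0.H d).obj (Om0 r))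
    (hx : (T0.H d).map (toQ0 r) x = 0) :
    ∃ (s : ℕ) (h : r ≤ s), (T0.H d).map (map0 h) x = 0 :=
  exists_stage_zero (ModuleCat.of (ZMod 2) (ZMod 2)) isColimitSing0 d x hx

end Vale.Agent.P263.TOP
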