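import Vale.Agent.P263.TOP.LevelB
import Vale.Agent.P263.G.Sing
import Vale.Agent.P263.T0.SphH
import Vale.Agent.P263.T0.Stmt

/-!
# P263, GLUE: the literal statement in the degrees `d` with `d + 1`, `d + 2` not powers of two

`G2Stmt` : in every range of degrees the singular simplices of `Q₀S⁰` have the mod 2 cohomology of
`Gam (2 ^ k)` for some `k`, through a zigzag.

`curtisL0 : Contract M → G2Stmt → CurtisL0`.
-/

noncomputable section

namespace Vale.Agent.P263.TOP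

open CategoryTheory Vale.Agent.P263.S Vale.Agent.P263.E Vale.Agent.P263.TI Vale.Agent.P263.TOP.H

/-- the singular simplices of the sphere -/
abbrev singS (d : ℕ) : SS := G.sing (TopCat.of (T0.Sph d))

theorem singS_mem_Bd {d n : ℕ} (f : (SS.F (ZMod 2) (singS d)).obj n) :
    f ∈ (SS.F (ZMod 2) (singS d)).Bd n ↔ T0.IsCobd (T0.SphH.SS d) f :=
  (G.isCobd_iff (T0.SphH.SS d) f).symm

theorem singS_mem_Z {d n : ℕ} (f : (SS.F (ZMod 2) (singS d)).obj n) :
    f ∈ (SS.F (ZMod 2) (singS d)).Z n ↔ T0.cobd (T0.SphH.SS d) f = 0 := by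
  have h := G.d_eq_cobd (T0.SphH.SS d) f
  constructor
  · intro hf; exact h.symm.trans hf
  · intro hf; exact h.trans hf

theorem singS_H_eq_zero {d n : ℕ} (hn : 0 < n) (hd : n ≠ d) (x : Co (singS d) n) : x = 0 := by
  obtain ⟨⟨f, hf⟩, rfl⟩ := (SS.F (ZMod 2) (singS d)).cls_surjective n x
  rw [CosMod.cls_eq_zero_iff]
  exact (singS_mem_Bd f).2 (T0.SphH.isCobd_of_ne hn hd f ((singS_mem_Z f).1 hf))

/-- the singular simplices of the sphere are sphere-like -/
theorem sphLike_singS {d : ℕ} (hd : 0 < d) : SphLike (ZMod 2) (singS d) d where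
  dpos := hd
  ne p := ⟨T0.SphH.cstS d p⟩
  zero f hf x y := by
    have h := (singS_mem_Z f).1 hf
    exact (T0.SphH.eq_const_of_zero hd f h x).trans (T0.SphH.eq_const_of_zero hd f h y).symm
  low j hj hjd x := singS_H_eq_zero hj (by omega) x
  top x := singS_H_eq_zero (by omega) (by omega) x

/-- evaluation on the fundamental cycle -/
def evS (d : ℕ) : (SS.F (ZMod 2) (singS d)).obj d →ₗ[ZMod 2] ZMod 2 where
  toFun f := f (T0.SphH.sigS d) + f (T0.SphH.cstS d d)
  map_add' _ _ := add_add_add_comm _ _ _ _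
  map_smul' r _ := (mul_add r _ _).symm

theorem mem_Bd_iff_evS {d : ℕ} (hd : 0 < d) (f : (SS.F (ZMod 2) (singS d)).Z d) :
    f.1 ∈ (SS.F (ZMod 2) (singS d)).Bd d ↔ evS d f.1 = 0 :=
  (singS_mem_Bd f.1).trans (T0.SphH.isCobd_iff hd f.1 ((singS_mem_Z f.1).1 f.2))

/-- evaluation on the fundamental class -/
def fundHom {d : ℕ} (hd : 0 < d) : Co (singS d) d →ₗ[ZMod 2] ZMod 2 :=
  Submodule.liftQ _ ((evS d).comp (Submodule.subtype _)) fun z hz => (mem_Bd_iff_evS hd z).1 hz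

theorem fundHom_cls {d : ℕ} (hd : 0 < d) (z : (SS.F (ZMod 2) (singS d)).Z d) :
    fundHom hd ((SS.F (ZMod 2) (singS d)).cls d z) = evS d z.1 := rfl

theorem fundHom_bijective {d : ℕ} (hd : 0 < d) : Function.Bijective (fundHom hd) := by
  constructor
  · rw [injective_iff_map_eq_zero]
    intro x hx
    obtain ⟨z, rfl⟩ := (SS.F (ZMod 2) (singS d)).cls_surjective d x
    rw [CosMod.cls_eq_zero_iff]
    exact (mem_Bd_iff_evS hd z).2 hx
  · intro r
    obtain ⟨c, hc, h1⟩ := T0.SphH.exists_cocycle_one d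
    refine ⟨r • (SS.F (ZMod 2) (singS d)).cls d ⟨c, (singS_mem_Z c).2 hc⟩, ?_⟩
    rw [map_smul, fundHom_cls]
    show r • (c (T0.SphH.sigS d) + c (T0.SphH.cstS d d)) = r
    rw [h1, smul_eq_mul, mul_one]

/-- evaluation on the fundamental class -/
def fundS {d : ℕ} (hd : 0 < d) : Co (singS d) d ≃ₗ[ZMod 2] ZMod 2 :=
  LinearEquiv.ofBijective (fundHom hd) (fundHom_bijective hd)

/-- Output of the block `[G2]`. -/
def G2Stmt : Prop := ∀ D : ℕ, ∃ k : ℕ, 2 ≤ k ∧
  G.Conn (ZMod 2) D (Gam (2 ^ k)) (G.sing T0.Q0S0)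

/-- The geometric data of a map `Sᵈ → Q₀S⁰`. -/
theorem exists_geo (hG : G2Stmt) {d : ℕ} (hd : 0 < d) :
    ∃ (k : ℕ) (Z : SS) (j : SS.Map (G.sing T0.Q0S0) Z),
      Function.Bijective ((j.pull (R := ZMod 2)).mapH d) ∧
      ∀ g : TopCat.of (T0.Sph d) ⟶ T0.Q0S0, ∃ G' : Geo d (2 ^ k),
        (G'.phi = 0 ↔ (T0.H d).map g = 0) := by
  obtain ⟨k, hk, Z, i, j, hi, hj⟩ := hG (d + 3)
  have hjb : ∀ n < d + 3, Function.Bijective ((j.pull (R := ZMod 2)).mapH n) :=
    fun n hn => ⟨hj.1 n hn.le, hj.2 n hn⟩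
  refine ⟨k, Z, j, hjb d (by omega), fun g => ?_⟩
  have h4 : 3 ≤ 2 ^ k := by
    have : 2 ^ 2 ≤ 2 ^ k := Nat.pow_le_pow_right (by norm_num) hk
    omega
  let G' : Geo d (2 ^ k) :=
    { hN := h4
      Z := Z
      A := singS d
      D := d + 2
      hD := le_rfl
      c := i
      a := j.comp (G.singMap g)
      hc := fun n hn => ⟨hi.1 n (by omega), hi.2 n (by omega)⟩
      hA := sphLike_singS hd
      fund := fundS hd }
  refine ⟨G', ?_⟩
  rw [G.H_map_eq_zero_iff_mapH, G'.phi_eq_zero_iff]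
  constructor
  · intro h
    refine LinearMap.ext fun x => ?_
    obtain ⟨z, rfl⟩ := (hjb d (by omega)).2 x
    have h2 := h z
    rw [← Hom.mapH_comp]
    exact h2
  · intro h z
    show ((j.comp (G.singMap g)).pull).mapH d z = 0
    rw [SS.Map.pull_comp, Hom.mapH_comp, h]
    rfl

/-- **The literal theorem, level L0**, from the outputs of the blocks. -/
theorem curtisL0 {M : TowerModel} (K : Contract M) (hG : G2Stmt) : T0.CurtisL0 := by
  intro d hd g _ hne
  by_contra hcon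
  push Not at hcon
  obtain ⟨k, Z, j, -, hk⟩ := exists_geo hG hd
  obtain ⟨G', hG'⟩ := hk g
  refine hne (hG'.1 (K.phi_eq_zero G' ?_ ?_))
  · rintro ⟨s, hs⟩; exact hcon.1 s hs
  · rintro ⟨s, hs⟩; exact hcon.2 s hs

end Vale.Agent.P263.TOP
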