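import Vale.Agent.P263.G2.PvPlus
import Vale.Agent.P263.G2.MixSplit
import Vale.Agent.P263.G2.QInfDeg
import Vale.Agent.P263.GB.TelConn
import Vale.Agent.P263.TJ.JoinBox

/-!
# P263, block TOP: the map `boxes # R` of `Mix` is the literal one

* `exists_vertex` : a vertex of `MixSS Unit Empty` is given by a loop `R : Om r`, for all large `r`.
* `toQ_boxes` : for `S : FNr (r + 1) N Unit` the loops of `(mulR v) (alpha S)` are the simplex
  `toQ ∘ gBR r N half R` of `QS⁰`.
-/

open Topology CategoryTheory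
open scoped OnePoint

namespace Vale.Agent.P263.TOP.LitR

open Vale.Agent.P263.S Vale.Agent.P263.E Vale.Agent.P263.G2 Vale.Agent.P263.GB
open Vale.Agent.P263.T0 (Om QS0 Q0S0)

theorem push_mul_q {K T : Type} [TopologicalSpace T] (x y : Mix K Empty T) :
    Fn.push (Sum.elim some fun _ => none) (x.mul y).q =
      Fn.mul (Fn.push (Sum.elim some fun _ => none : K ⊕ Empty → Option K) x.q)
        (Fn.push (Sum.elim some fun _ => none) y.q) := by
  rw [Mix.mul_q, Fn.push_mul]

/-- the loops of a product -/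
theorem toQ_mul (K : Type) [Finite K] {p : ℕ} (x y : (MixSS K Empty).obj p) :
    ((MixSS.toQ K Empty).app ((MixSS.mul K Empty).app (x, y))).1 =
      Fn.mul ((MixSS.toQ K Empty).app x).1 ((MixSS.toQ K Empty).app y).1 :=
  push_mul_q (T := Dl p) x y

/-- the loops of the collapse of all boxes -/
theorem toQ_alpha {p : ℕ} (x : (MixSS Empty Unit).obj p) :
    ((MixSS.toQ Unit Empty).app ((mixG.alpha.app Unit).app x)).1 =
      al (show Mix Empty Unit (Dl p) from x).S := by
  refine Fn.ext' fun t v k w => ?_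
  show Fn.push (Sum.elim some fun _ => none) (Fn.push (labφ (fun e : Empty => e.elim)
    (fun k : Unit => some (Sum.inl k : Unit ⊕ Empty)))
      (show Mix Empty Unit (Dl p) from x).q) t v = some (k, w) ↔ _
  rw [Fn.push_push, Fn.push_eq_some]
  constructor
  · rintro ⟨y, h1, h2⟩
    rcases y with e | k'
    · exact e.elim
    · obtain rfl : k' = k := Subsingleton.elim _ _
      exact (show Mix Empty Unit (Dl p) from x).q_inr.1 h1
  · intro h
    exact ⟨Sum.inr k, (show Mix Empty Unit (Dl p) from x).q_inr.2 h, rfl⟩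

theorem toQ_mulR (v : (MixSS Unit Empty).obj 0) {p : ℕ} (x : (MixSS Unit Empty).obj p) :
    ((MixSS.toQ Unit Empty).app ((mixG.mulR (K := Unit) (L := Empty) v).app x)).1 =
      Fn.mul ((MixSS.toQ Unit Empty).app x).1
        (((MixSS.toQ Unit Empty).app v).1.pull (dmap (MixG.bot p))) :=
  toQ_mul Unit x _

/-- a vertex of `MixSS Unit Empty` is a loop of every large stage -/
theorem exists_vertex (v : (MixSS Unit Empty).obj 0) : ∃ r0, ∀ r, r0 ≤ r → ∃ R : Om r,
    ((MixSS.toQ Unit Empty).app v).1 = pvF fun _ => T0.toQ r R := by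
  obtain ⟨r0, h0⟩ := ((MixSS.toQ Unit Empty).app v).2
  refine ⟨r0, fun r hr => ?_⟩
  obtain ⟨f, hf⟩ := exists_omOf (h0.mono hr)
  refine ⟨f TJ.pt0, ?_⟩
  rw [← hf]
  congr 1
  funext t
  rw [Subsingleton.elim t TJ.pt0]

/-- **`(mulR v) ∘ alpha` on the boxes of stage `r + 1` is `boxes # R`.** -/
theorem toQ_boxes {r N : ℕ} {v : (MixSS Unit Empty).obj 0} {R : Om (r + 1)}
    (hv : ((MixSS.toQ Unit Empty).app v).1 = pvF fun _ => T0.toQ (r + 1) R) {p : ℕ}
    (S : (FNr (r + 1) N Unit).obj p) (x : (MixSS Empty Unit).obj p)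
    (hx : (show Mix Empty Unit (Dl p) from x).S = S.1) :
    (MixSS.toQ Unit Empty).app ((mixG.mulR (K := Unit) (L := Empty) v).app
      ((mixG.alpha.app Unit).app x)) =
      singToQI.app ((singMap (T0.toQ (r + 1)).hom).app ((TJ.gBR r N half R).app S)) := by
  apply Subtype.ext
  refine (toQ_mulR v ((mixG.alpha.app Unit).app x)).trans ?_
  refine Eq.trans ?_ (pvF_plus (T := Dl p) (fun _ => R) (fun t => alphaOm (r + 1) S.1 S.2.1 t)).symm
  refine congrArg₂ Fn.mul ?_ ?_
  · rw [pvF_alphaOm]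
    exact (toQ_alpha x).trans (congrArg al hx)
  · exact congrArg (fun g : Fn Unit (Dl 0) => g.pull (dmap (MixG.bot p))) hv

end Vale.Agent.P263.TOP.LitR
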