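import Vale.Agent.P263.TOP.Sus

/-!
# P263, topology: the stabilisation maps

* `snocH r : (Fin r → ℝ) × ℝ ≃ₜ (Fin (r + 1) → ℝ)` ;
* `BMap.conj` : transport along homeomorphisms;
* `BMap.stab A B r : BMap (A × ℝ^r) (B × ℝ^r) → BMap (A × ℝ^(r+1)) (B × ℝ^(r+1))`, a closed
  embedding; `BMap.stab0 r : BMap ℝ^r ℝ^r → BMap ℝ^(r+1) ℝ^(r+1)`, a closed embedding.
-/

open OnePoint Topology Vale.Agent.P251.G

namespace Vale.Agent.P263.TOP

/-- `ℝ^r × ℝ = ℝ^(r+1)` -/
def snocH (r : ℕ) : (Fin r → ℝ) × ℝ ≃ₜ (Fin (r + 1) → ℝ) where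
  toFun p := Fin.snoc p.1 p.2
  invFun x := (Fin.init x, x (Fin.last r))
  left_inv p := Prod.ext (Fin.init_snoc (α := fun _ => ℝ) p.2 p.1)
    (Fin.snoc_last (α := fun _ => ℝ) p.2 p.1)
  right_inv x := Fin.snoc_init_self x
  continuous_toFun := continuous_pi fun i => by
    refine Fin.lastCases ?_ (fun j => ?_) i
    · simp only [Fin.snoc_last]
      exact continuous_snd
    · simp only [Fin.snoc_castSucc]
      exact (continuous_apply j).comp continuous_fst
  continuous_invFun := (continuous_pi fun j => continuous_apply (Fin.castSucc j)).prodMk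
    (continuous_apply (Fin.last r))

@[simp] theorem snocH_apply (r : ℕ) (p : (Fin r → ℝ) × ℝ) : snocH r p = Fin.snoc p.1 p.2 := rfl

@[simp] theorem snocH_symm_apply (r : ℕ) (x : Fin (r + 1) → ℝ) :
    (snocH r).symm x = (Fin.init x, x (Fin.last r)) := rfl

section conj

set_option linter.unusedSectionVars false

variable {X X' Y Y' : Type} [TopologicalSpace X] [T2Space X] [LocallyCompactSpace X]
  [TopologicalSpace X'] [T2Space X'] [LocallyCompactSpace X']
  [TopologicalSpace Y] [T2Space Y] [LocallyCompactSpace Y]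
  [TopologicalSpace Y'] [T2Space Y'] [LocallyCompactSpace Y']

/-- the homeomorphism of the one-point compactifications -/
def opH (e : X ≃ₜ X') : OnePoint X ≃ₜ OnePoint X' := e.onePointCongr

theorem opH_infty (e : X ≃ₜ X') : opH e ∞ = ∞ := rfl

theorem opH_coe (e : X ≃ₜ X') (x : X) : opH e (x : OnePoint X) = (e x : OnePoint X') := rfl

theorem opH_symm_infty (e : X ≃ₜ X') : (opH e).symm ∞ = ∞ := rfl

theorem conj_inf {f : C(OnePoint X, OnePoint Y)} (hf : f ∞ = ∞) (e : OnePoint X' ≃ₜ OnePoint X)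
    (he : e ∞ = ∞) (e' : OnePoint Y ≃ₜ OnePoint Y') (he' : e' ∞ = ∞) : e' (f (e ∞)) = ∞ := by
  rw [he, hf, he']

/-- transport of based maps along homeomorphisms -/
def BMap.conjFun (e : X ≃ₜ X') (e' : Y ≃ₜ Y') (f : BMap X Y) : BMap X' Y' :=
  ⟨((opH e' : C(OnePoint Y, OnePoint Y')).comp f.1).comp
    ((opH e).symm : C(OnePoint X', OnePoint X)),
    conj_inf f.2 (opH e).symm (opH_symm_infty e) (opH e') (opH_infty e')⟩

theorem BMap.conjFun_apply (e : X ≃ₜ X') (e' : Y ≃ₜ Y') (f : BMap X Y) (x : OnePoint X') :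
    (BMap.conjFun e e' f).1 x = opH e' (f.1 ((opH e).symm x)) := rfl

theorem opH_symm (e : X ≃ₜ X') : (opH e).symm = opH e.symm := rfl

theorem BMap.continuous_conjFun (e : X ≃ₜ X') (e' : Y ≃ₜ Y') :
    Continuous (BMap.conjFun e e' : BMap X Y → BMap X' Y') :=
  Continuous.subtype_mk (((ContinuousMap.continuous_precomp _).comp
    (ContinuousMap.continuous_postcomp _)).comp continuous_subtype_val) _

theorem BMap.conjFun_conjFun (e : X ≃ₜ X') (e' : Y ≃ₜ Y') (f : BMap X Y) :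
    BMap.conjFun e.symm e'.symm (BMap.conjFun e e' f) = f :=
  Subtype.ext (ContinuousMap.ext fun x => by
    rw [BMap.conjFun_apply, BMap.conjFun_apply, ← opH_symm, ← opH_symm]
    change (opH e').symm (opH e' (f.1 ((opH e).symm (opH e x)))) = f.1 x
    rw [Homeomorph.symm_apply_apply, Homeomorph.symm_apply_apply])

/-- transport of based maps along homeomorphisms -/
def BMap.conj (e : X ≃ₜ X') (e' : Y ≃ₜ Y') : BMap X Y ≃ₜ BMap X' Y' where
  toFun := BMap.conjFun e e'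
  invFun := BMap.conjFun e.symm e'.symm
  left_inv f := BMap.conjFun_conjFun e e' f
  right_inv f := BMap.conjFun_conjFun e.symm e'.symm f
  continuous_toFun := BMap.continuous_conjFun e e'
  continuous_invFun := BMap.continuous_conjFun e.symm e'.symm

theorem BMap.conj_apply (e : X ≃ₜ X') (e' : Y ≃ₜ Y') (f : BMap X Y) (x : OnePoint X') :
    (BMap.conj e e' f).1 x = opH e' (f.1 ((opH e).symm x)) := rfl

end conj

section stab

variable (A B : Type) [TopologicalSpace A] [T2Space A] [LocallyCompactSpace A]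
  [TopologicalSpace B] [T2Space B] [LocallyCompactSpace B]

/-- `(A × ℝ^r) × ℝ = A × ℝ^(r+1)` -/
def assocH (r : ℕ) : (A × (Fin r → ℝ)) × ℝ ≃ₜ A × (Fin (r + 1) → ℝ) :=
  (Homeomorph.prodAssoc A (Fin r → ℝ) ℝ).trans ((Homeomorph.refl A).prodCongr (snocH r))

/-- the stabilisation `f ↦ f ∧ 1` -/
def BMap.stab (r : ℕ) (f : BMap (A × (Fin r → ℝ)) (B × (Fin r → ℝ))) :
    BMap (A × (Fin (r + 1) → ℝ)) (B × (Fin (r + 1) → ℝ)) :=
  BMap.conj (assocH A r) (assocH B r) (BMap.sus ℝ f)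

theorem BMap.isClosedEmbedding_stab (r : ℕ) : IsClosedEmbedding (BMap.stab A B r) :=
  (BMap.conj (assocH A r) (assocH B r)).isClosedEmbedding.comp BMap.isClosedEmbedding_sus

/-- the value at `(a, (x, t))` -/
theorem BMap.stab_apply (r : ℕ) (f : BMap (A × (Fin r → ℝ)) (B × (Fin r → ℝ))) (a : A)
    (x : Fin (r + 1) → ℝ) :
    (BMap.stab A B r f).1 ((a, x) : A × (Fin (r + 1) → ℝ)) =
      opH (assocH B r) (LC.smash (f.1 ((a, Fin.init x) : A × (Fin r → ℝ)))
        (x (Fin.last r) : OnePoint ℝ)) := rfl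

/-- the stabilisation `Ω^r S^r → Ω^(r+1) S^(r+1)` -/
def BMap.stab0 (r : ℕ) (f : BMap (Fin r → ℝ) (Fin r → ℝ)) :
    BMap (Fin (r + 1) → ℝ) (Fin (r + 1) → ℝ) :=
  BMap.conj (snocH r) (snocH r) (BMap.sus ℝ f)

theorem BMap.isClosedEmbedding_stab0 (r : ℕ) : IsClosedEmbedding (BMap.stab0 r) :=
  (BMap.conj (snocH r) (snocH r)).isClosedEmbedding.comp BMap.isClosedEmbedding_sus

/-- the value at `(x, t)`: `∞` if `f x = ∞`, else `(f x, t)` -/
theorem BMap.stab0_apply (r : ℕ) (f : BMap (Fin r → ℝ) (Fin r → ℝ)) (x : Fin (r + 1) → ℝ) :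
    (BMap.stab0 r f).1 (x : OnePoint (Fin (r + 1) → ℝ)) =
      (f.1 ((Fin.init x : Fin r → ℝ) : OnePoint (Fin r → ℝ))).elim ∞
        fun y => ((Fin.snoc y (x (Fin.last r)) : Fin (r + 1) → ℝ) :
          OnePoint (Fin (r + 1) → ℝ)) := by
  change opH (snocH r) (LC.smash (f.1 ((Fin.init x : Fin r → ℝ) : OnePoint (Fin r → ℝ)))
    (x (Fin.last r) : OnePoint ℝ)) = _
  generalize f.1 ((Fin.init x : Fin r → ℝ) : OnePoint (Fin r → ℝ)) = y
  induction y using OnePoint.rec with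
  | infty => rfl
  | coe y => rfl

end stab

end Vale.Agent.P263.TOP
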